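import Vale.Agent.P004N.H974.RS
import Vale.Agent.P004N.H176.Iface

/-!
# P004N: Rankin-Selberg for real coefficients, in the form of `H176/Iface`
-/

namespace P004N

/-- **Rankin-Selberg for real coefficients** -/
theorem pfRSR : StRSR := by
  intro M g b hM hg hq h1
  obtain ⟨V, hV, C, δ, hδ, h⟩ := T3.rs_real hM hg hq h1
  exact ⟨V, C, δ, hV, hδ, h⟩

end P004N
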