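import Vale.Agent.P004N.H974.N1
import Vale.Agent.P004N.H974.RSR
import Vale.Agent.P004H.H212.Mu

/-!
# P004N: module T3c-3
-/

open Finset

namespace P004N

namespace MF

/-- the Hecke relations of a newform -/
theorem rl_of {M : ℕ} {g : UpperHalfPlane → ℂ} {b : ℕ → ℝ} {ε : ℝ} (h : NF M g b ε) : Rl M b where
  pos := h.pos
  one := h.one
  good := h.good
  bad := h.bad

end MF

/-- **Module T3c-3** -/
theorem pfN1N : StN1N := by
  intro M g b ε h B hB0 hMB
  obtain ⟨V, hV, C, δ, hδ, hP⟩ := T3.rs_real h.pos h.s2 h.qe h.one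
  obtain ⟨C0, δ0, hC0, hδ0, hpow⟩ := pfPowN M g b ε h
  exact MF.n1 (MF.rl_of h) hB0 hMB hδ hP (by linarith) hδ0 hpow Vale.Agent.P004H.H212.mu_div

end P004N
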