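import Vale.Agent.P004.H26.R.RS1

/-!
# P004N: interface of the analytic part of Rankin-Selberg (module T3b)
-/

open Real

namespace P004N

open Vale.Agent.P004.H26.H392 (W)

/-- Module T3b, symmetric form: a nonnegative sequence whose theta series with kernel `W` satisfies
the symmetric functional equation has a sharp mean value with power saving -/
def StSym : Prop := ∀ (b : ℕ → ℝ) (A c : ℝ), 0 < A → 0 < c → (∀ k, 0 ≤ b k) → b 0 = 0 →
  (∀ s : ℝ, 1 < s → Summable fun k : ℕ => b k * (k : ℝ) ^ (-s)) →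
  (∀ u : ℝ, 0 < u → (∑' k : ℕ, b k * W (k * (1 / u) / A)) + c =
    u * ((∑' k : ℕ, b k * W (k * u / A)) + c)) →
  ∃ C δ : ℝ, 0 < δ ∧ ∀ x : ℝ, 1 ≤ x →
    |∑ k ∈ Finset.Icc 1 ⌊x⌋₊, b k - 8 * π ^ 3 * c / A * x| ≤ C * x ^ (1 - δ)

end P004N
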