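import Mathlib

/-!
# P004N: multiplicative functions with given values at prime powers, summability
-/

open Finset

namespace P004N.MF

open ArithmeticFunction

/-- the multiplicative function with the values `g p k` at the prime powers -/
noncomputable def mf (g : ℕ → ℕ → ℝ) : ArithmeticFunction ℝ :=
  ⟨fun n => if n = 0 then 0 else n.factorization.prod g, by simp⟩

lemma mf_apply (g : ℕ → ℕ → ℝ) {n : ℕ} (hn : n ≠ 0) : mf g n = n.factorization.prod g := by
  change (if n = 0 then 0 else n.factorization.prod g) = _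
  rw [if_neg hn]

lemma mf_mult (g : ℕ → ℕ → ℝ) : IsMultiplicative (mf g) := by
  constructor
  · rw [mf_apply g one_ne_zero]; simp
  · intro m n h
    rcases eq_or_ne m 0 with rfl | hm
    · rw [zero_mul, ArithmeticFunction.map_zero, zero_mul]
    rcases eq_or_ne n 0 with rfl | hn
    · rw [mul_zero, ArithmeticFunction.map_zero, mul_zero]
    rw [mf_apply g hm, mf_apply g hn, mf_apply g (mul_ne_zero hm hn), Nat.factorization_mul hm hn,
      Finsupp.prod_add_index_of_disjoint]
    rw [Nat.support_factorization, Nat.support_factorization]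
    exact h.disjoint_primeFactors

lemma mf_pp {g : ℕ → ℕ → ℝ} (hg : ∀ p, g p 0 = 1) {p : ℕ} (hp : p.Prime) (k : ℕ) :
    mf g (p ^ k) = g p k := by
  rw [mf_apply g (pow_ne_zero _ hp.ne_zero), hp.factorization_pow, Finsupp.prod_single_index (hg p)]

lemma conv_pp (f g : ArithmeticFunction ℝ) {p : ℕ} (hp : p.Prime) (k : ℕ) :
    (f * g) (p ^ k) = ∑ x ∈ antidiagonal k, f (p ^ x.1) * g (p ^ x.2) := by
  rw [mul_apply, Nat.sum_divisorsAntidiagonal (fun a b => f a * g b),
    Nat.sum_divisors_prime_pow hp, Finset.Nat.sum_antidiagonal_eq_sum_range_succ_mk]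
  apply sum_congr rfl
  intro i hi
  rw [mem_range] at hi
  rw [Nat.pow_div (by omega) hp.pos]

/-- the power series of an arithmetic function at a prime -/
noncomputable def ser (f : ArithmeticFunction ℝ) (p : ℕ) : PowerSeries ℝ :=
  PowerSeries.mk fun k => f (p ^ k)

lemma ser_mul (f g : ArithmeticFunction ℝ) {p : ℕ} (hp : p.Prime) :
    ser (f * g) p = ser f p * ser g p := by
  ext k
  rw [PowerSeries.coeff_mul]
  unfold ser
  rw [PowerSeries.coeff_mk, conv_pp f g hp]
  apply sum_congr rfl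
  intro x _
  rw [PowerSeries.coeff_mk, PowerSeries.coeff_mk]

open PowerSeries in
lemma ser_one {f : ArithmeticFunction ℝ} {p : ℕ} {c : ℝ} (h0 : f (p ^ 0) = 1)
    (h : ∀ k, f (p ^ (k + 1)) = c * f (p ^ k)) : ser f p * (1 - C c * X) = 1 := by
  ext k
  have e : ser f p * (1 - C c * X) = ser f p - C c * (ser f p * X) := by ring
  rw [e, map_sub, coeff_C_mul, coeff_one]
  cases k with
  | zero =>
    rw [pow_zero] at h0
    simp [ser, h0]
  | succ k =>
    rw [coeff_succ_mul_X]
    unfold ser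
    rw [coeff_mk, coeff_mk, h, if_neg (Nat.succ_ne_zero k)]
    ring

/-- equality of multiplicative functions from the local series -/
theorem eq_of_ser {f g : ArithmeticFunction ℝ} (hf : IsMultiplicative f) (hg : IsMultiplicative g)
    (h : ∀ p : ℕ, p.Prime → ser f p = ser g p) : f = g := by
  rw [IsMultiplicative.eq_iff_eq_on_prime_powers _ hf _ hg]
  intro p k hp
  have h4 := congrArg (PowerSeries.coeff k) (h p hp)
  unfold ser at h4
  rwa [PowerSeries.coeff_mk, PowerSeries.coeff_mk] at h4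

/-- summability of a multiplicative function from the prime powers -/
theorem mult_summable {f : ℕ → ℝ} (h0 : f 0 = 0) (h1 : f 1 = 1)
    (hmul : ∀ {m n : ℕ}, m.Coprime n → f (m * n) = f m * f n) (hnn : ∀ n, 0 ≤ f n)
    (hs : ∀ {p : ℕ}, p.Prime → Summable fun k : ℕ => f (p ^ k)) {S : ℝ}
    (hS : ∀ N : ℕ, ∑ p ∈ N.primesBelow, ∑' k : ℕ, f (p ^ (k + 1)) ≤ S) : Summable f := by
  have hloc : ∀ {p : ℕ}, p.Prime → ∑' k : ℕ, f (p ^ k) = 1 + ∑' k : ℕ, f (p ^ (k + 1)) := by
    intro p hp
    rw [(hs hp).tsum_eq_zero_add, pow_zero, h1]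
  refine summable_of_sum_range_le hnn (c := Real.exp S) fun n => ?_
  obtain ⟨hs1, hs2⟩ := EulerProduct.summable_and_hasSum_smoothNumbers_prod_primesBelow_tsum
    (R := ℝ) h1 hmul (fun hp => by
      refine (hs hp).congr fun k => ?_
      rw [Real.norm_of_nonneg (hnn _)]) n
  have hbound : ∏ p ∈ n.primesBelow, ∑' k : ℕ, f (p ^ k) ≤ Real.exp S := by
    calc ∏ p ∈ n.primesBelow, ∑' k : ℕ, f (p ^ k)
        ≤ ∏ p ∈ n.primesBelow, Real.exp (∑' k : ℕ, f (p ^ (k + 1))) := by
          refine prod_le_prod (fun p _ => tsum_nonneg fun k => hnn _) fun p hp => ?_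
          rw [hloc (Nat.prime_of_mem_primesBelow hp), add_comm]
          exact Real.add_one_le_exp _
      _ = Real.exp (∑ p ∈ n.primesBelow, ∑' k : ℕ, f (p ^ (k + 1))) := by
          rw [Real.exp_sum]
      _ ≤ Real.exp S := Real.exp_le_exp.2 (hS n)
  refine le_trans ?_ (hs2.tsum_eq ▸ hbound)
  have hsub : ∀ m ∈ range n, m ≠ 0 → m ∈ n.smoothNumbers := by
    intro m hm hm0
    rw [Nat.mem_smoothNumbers]
    refine ⟨hm0, fun p hp => ?_⟩
    exact lt_of_le_of_lt (Nat.le_of_dvd (Nat.pos_of_ne_zero hm0) (Nat.dvd_of_mem_primeFactorsList hp))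
      (mem_range.1 hm)
  have hsumm : Summable fun m : n.smoothNumbers => f m := hs2.summable
  classical
  have e : ∑ m ∈ range n, f m = ∑ m ∈ (range n).filter (fun m => m ≠ 0), f m := by
    rw [sum_filter]
    refine sum_congr rfl fun m _ => ?_
    split_ifs with h
    · rfl
    · have : m = 0 := by simpa using h
      rw [this, h0]
  rw [e]
  have e2 : ∑ m ∈ (range n).filter (fun m => m ≠ 0), f m =
      ∑ m ∈ ((range n).filter (fun m => m ≠ 0)).subtype (· ∈ n.smoothNumbers), f m := by
    rw [sum_subtype_eq_sum_filter, filter_filter]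
    refine sum_congr ?_ fun _ _ => rfl
    ext m
    rw [mem_filter, mem_filter]
    constructor
    · rintro ⟨h1, h2⟩
      exact ⟨h1, h2, hsub m h1 h2⟩
    · rintro ⟨h1, h2, _⟩
      exact ⟨h1, h2⟩
  rw [e2]
  exact hsumm.sum_le_tsum _ fun m _ => hnn _

end P004N.MF
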