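import Vale.Agent.P004.H26.R.N1a
import Vale.Agent.P004N.H974.Mf

/-!
# P004N: logarithmic saving for `μ * b` and convolution with absolutely convergent factors
-/

open Real Finset

namespace P004N.MF

open ArithmeticFunction
open Vale.Agent.P004.H26.H181 (muconv part_sum)

noncomputable def wt (f : ArithmeticFunction ℝ) : ArithmeticFunction ℝ := ⟨fun n => f n / n, by simp⟩

lemma wt_apply (f : ArithmeticFunction ℝ) (n : ℕ) : wt f n = f n / n := rfl

lemma wt_mul (f g : ArithmeticFunction ℝ) : wt (f * g) = wt f * wt g := by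
  ext n
  rw [wt_apply, mul_apply, mul_apply, sum_div]
  apply sum_congr rfl
  intro x hx
  rw [Nat.mem_divisorsAntidiagonal] at hx
  rw [wt_apply, wt_apply, ← hx.1]
  push_cast
  rw [div_mul_div_comm]

/-- `V` at `1` -/
noncomputable def e1 (V : ℝ) : ArithmeticFunction ℝ := ⟨fun n => if n = 1 then V else 0, by simp⟩

lemma e1_apply (V : ℝ) (n : ℕ) : e1 V n = if n = 1 then V else 0 := rfl

lemma e1_zeta (V : ℝ) {n : ℕ} (hn : n ≠ 0) :
    (e1 V * ((zeta : ArithmeticFunction ℕ) : ArithmeticFunction ℝ)) n = V := by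
  rw [coe_mul_zeta_apply]
  simp only [e1_apply]
  rw [Finset.sum_ite_eq', if_pos]
  exact Nat.one_mem_divisors.2 hn

lemma wt_sub' (f g : ArithmeticFunction ℝ) : wt (f - g) = wt f - wt g := by
  ext n
  change (f n - g n) / n = f n / n - g n / n
  rw [sub_div]

lemma wt_e1 (V : ℝ) : wt (e1 V) = e1 V := by
  ext n
  rw [wt_apply, e1_apply]
  split_ifs with h
  · rw [h]; simp
  · simp

lemma sum_e1 (V : ℝ) {N : ℕ} (hN : 1 ≤ N) : ∑ n ∈ Ioc 0 N, e1 V n = V := by
  simp only [e1_apply]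
  rw [Finset.sum_ite_eq', if_pos]
  rw [mem_Ioc]; omega

/-- the real Moebius function -/
noncomputable def muR : ArithmeticFunction ℝ := ((moebius : ArithmeticFunction ℤ) : ArithmeticFunction ℝ)

lemma muR_apply (n : ℕ) : muR n = (moebius n : ℝ) := by
  rw [muR, intCoe_apply]

lemma muR_mult : IsMultiplicative muR := isMultiplicative_moebius.intCast

open PowerSeries in
lemma ser_muR {p : ℕ} (hp : p.Prime) : ser muR p = 1 - X := by
  ext k
  rw [map_sub, coeff_one, coeff_X]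
  simp only [ser, coeff_mk]
  rw [muR_apply]
  rcases k with _ | _ | k
  · simp
  · rw [moebius_apply_prime_pow hp (by norm_num)]
    simp
  · rw [moebius_apply_prime_pow hp (by omega), if_neg (by omega)]
    simp

lemma muR_zeta : muR * ((zeta : ArithmeticFunction ℕ) : ArithmeticFunction ℝ) = 1 :=
  coe_moebius_mul_coe_zeta

/-- the bound for `∑ μ(d) / d` -/
def MuIn : Prop := ∀ A : ℕ, ∃ C : ℝ, ∀ x : ℝ, 2 ≤ x →
      |∑ d ∈ Finset.Icc 1 ⌊x⌋₊, (ArithmeticFunction.moebius d : ℝ) / d| ≤ C / (Real.log x) ^ A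

/-- the Moebius input in the form used by `muconv` -/
lemma mu_input (hmu : MuIn)
    (A : ℕ) : ∃ C : ℝ, 0 ≤ C ∧ ∀ M : ℕ,
      |∑ n ∈ Ioc 0 M, wt muR n| ≤ C / (1 + Real.log (M + 1)) ^ A := by
  obtain ⟨C, hC⟩ := hmu A
  refine ⟨(|C| + 1) * 4 ^ A, by positivity, fun M => ?_⟩
  have hlog2 : (1 / 2 : ℝ) ≤ Real.log 2 := by
    have := Real.log_two_gt_d9
    linarith
  rcases Nat.lt_or_ge M 2 with hM | hM
  · have h1 : |∑ n ∈ Ioc 0 M, wt muR n| ≤ 1 := by
      interval_cases M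
      · simp
      · simp [wt_apply, muR_apply]
    refine h1.trans ?_
    have h2 : 0 ≤ Real.log ((M : ℝ) + 1) := Real.log_nonneg (by
      have : (0 : ℝ) ≤ M := Nat.cast_nonneg M
      linarith)
    have h3 : 1 + Real.log ((M : ℝ) + 1) ≤ 4 := by
      have h4 : Real.log ((M : ℝ) + 1) ≤ M := by
        have := Real.log_le_sub_one_of_pos (show (0 : ℝ) < (M : ℝ) + 1 by positivity)
        linarith
      have h5 : (M : ℝ) ≤ 2 := by exact_mod_cast hM.le
      linarith
    rw [le_div_iff₀ (by positivity), one_mul]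
    calc (1 + Real.log ((M : ℝ) + 1)) ^ A ≤ 4 ^ A := pow_le_pow_left₀ (by linarith) h3 A
      _ ≤ (|C| + 1) * 4 ^ A := by
          have : (0 : ℝ) < 4 ^ A := by positivity
          nlinarith [abs_nonneg C]
  · have hM2 : (2 : ℝ) ≤ M := by exact_mod_cast hM
    have h1 := hC M hM2
    rw [Nat.floor_natCast] at h1
    have e : ∑ n ∈ Ioc 0 M, wt muR n =
        ∑ d ∈ Finset.Icc 1 M, (ArithmeticFunction.moebius d : ℝ) / d := by
      apply sum_congr
      · ext d; rw [mem_Ioc, mem_Icc]; omega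
      · intro d _; rw [wt_apply, muR_apply]
    rw [e]
    refine h1.trans ?_
    have hl : (1 / 2 : ℝ) ≤ Real.log M := hlog2.trans (Real.log_le_log (by norm_num) hM2)
    have h3 : 1 + Real.log ((M : ℝ) + 1) ≤ 4 * Real.log M := by
      have h4 : Real.log ((M : ℝ) + 1) ≤ Real.log 2 + Real.log M := by
        rw [← Real.log_mul (by norm_num) (by positivity)]
        exact Real.log_le_log (by positivity) (by linarith)
      have h5 : Real.log 2 ≤ Real.log M := Real.log_le_log (by norm_num) hM2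
      linarith
    have h4 : 0 ≤ Real.log ((M : ℝ) + 1) := Real.log_nonneg (by linarith)
    rw [div_le_div_iff₀ (by positivity) (by positivity)]
    calc C * (1 + Real.log ((M : ℝ) + 1)) ^ A ≤ (|C| + 1) * (4 * Real.log M) ^ A := by
          apply mul_le_mul _ (pow_le_pow_left₀ (by linarith) h3 A) (by positivity) (by positivity)
          linarith [le_abs_self C]
      _ = _ := by rw [mul_pow]; ring

lemma wt_mu_le (n : ℕ) : |wt muR n| ≤ 1 / n := by
  rw [wt_apply, muR_apply, abs_div, Nat.abs_cast]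
  apply div_le_div_of_nonneg_right _ (Nat.cast_nonneg n)
  have : |moebius n| ≤ 1 := abs_moebius_le_one
  exact_mod_cast this

/-- **logarithmic saving for `μ * b`** -/
theorem mub {b : ArithmeticFunction ℝ} (hbnn : ∀ k, 0 ≤ b k) {V C dl : ℝ} (hdl : 0 < dl)
    (hB : ∀ x : ℝ, 1 ≤ x → |∑ k ∈ Finset.Icc 1 ⌊x⌋₊, b k - V * x| ≤ C * x ^ (1 - dl))
    (hmu : MuIn) :
    ∃ C' : ℝ, 0 ≤ C' ∧ ∀ N : ℕ, 1 ≤ N →
      |∑ n ∈ Ioc 0 N, wt (muR * b) n - V| ≤ C' / (1 + Real.log N) ^ 2 := by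
  set δ := min dl 1 with hδ
  have hδ0 : 0 < δ := lt_min hdl one_pos
  have hδ1 : δ ≤ 1 := min_le_right _ _
  have hC : 0 ≤ C := by
    have := (abs_nonneg _).trans (hB 1 le_rfl)
    simpa using this
  set β : ArithmeticFunction ℝ :=
    b - e1 V * ((zeta : ArithmeticFunction ℕ) : ArithmeticFunction ℝ) with hβ
  have hβa : ∀ k : ℕ, k ≠ 0 → β k = b k - V := by
    intro k hk
    change b k - (e1 V * ((zeta : ArithmeticFunction ℕ) : ArithmeticFunction ℝ)) k = _
    rw [e1_zeta V hk]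
  have hsum : ∀ N : ℕ, ∑ k ∈ Ioc 0 N, β k = ∑ k ∈ Finset.Icc 1 N, b k - V * N := by
    intro N
    have h1 : ∑ k ∈ Ioc 0 N, β k = ∑ k ∈ Finset.Icc 1 N, (b k - V) := by
      apply sum_congr
      · ext d; rw [mem_Ioc, mem_Icc]; omega
      · intro k hk
        rw [mem_Icc] at hk
        exact hβa k (by omega)
    rw [h1, sum_sub_distrib, sum_const, Nat.card_Icc, nsmul_eq_mul]
    push_cast
    ring
  have hBN : ∀ N : ℕ, 1 ≤ N → |∑ k ∈ Ioc 0 N, β k| ≤ C * (N : ℝ) ^ (1 - δ) := by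
    intro N hN
    have hN1 : (1 : ℝ) ≤ N := by exact_mod_cast hN
    rw [hsum]
    have h1 := hB N hN1
    rw [Nat.floor_natCast] at h1
    refine h1.trans (mul_le_mul_of_nonneg_left ?_ hC)
    exact Real.rpow_le_rpow_of_exponent_le hN1 (by linarith [min_le_left dl 1])
  obtain ⟨E, Cg, -, hE⟩ := part_sum hδ0 hδ1 hBN
  have hab : ∀ M : ℕ, ∑ k ∈ Ioc 0 M, |wt β k| ≤ (C + 2 * |V|) * M := by
    intro M
    rcases Nat.eq_zero_or_pos M with rfl | hM
    · simp
    have hM1 : (1 : ℝ) ≤ M := by exact_mod_cast hM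
    have h1 : ∀ k ∈ Ioc 0 M, |wt β k| ≤ b k + |V| := by
      intro k hk
      rw [mem_Ioc] at hk
      have hk1 : (1 : ℝ) ≤ k := by exact_mod_cast hk.1
      rw [wt_apply, abs_div, Nat.abs_cast, hβa k (by omega)]
      have h2 : |b k - V| ≤ b k + |V| := by
        refine (abs_sub _ _).trans ?_
        rw [abs_of_nonneg (hbnn k)]
      exact (div_le_self (abs_nonneg _) hk1).trans h2
    refine (sum_le_sum h1).trans ?_
    rw [sum_add_distrib, sum_const, Nat.card_Ioc, nsmul_eq_mul]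
    have h2 := hBN M hM
    rw [hsum] at h2
    have h3 := (abs_le.1 h2).2
    have h4 : (M : ℝ) ^ (1 - δ) ≤ M := by
      calc (M : ℝ) ^ (1 - δ) ≤ (M : ℝ) ^ (1 : ℝ) :=
            Real.rpow_le_rpow_of_exponent_le hM1 (by linarith)
        _ = M := Real.rpow_one _
    have h5 : V * M ≤ |V| * M := mul_le_mul_of_nonneg_right (le_abs_self V) (by linarith)
    have h6 : C * (M : ℝ) ^ (1 - δ) ≤ C * M := mul_le_mul_of_nonneg_left h4 hC
    have h7 : ∑ k ∈ Ioc 0 M, b k = ∑ k ∈ Finset.Icc 1 M, b k := by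
      apply sum_congr _ (fun _ _ => rfl)
      ext d; rw [mem_Ioc, mem_Icc]; omega
    rw [h7, Nat.sub_zero]
    linarith
  obtain ⟨C', hC', h⟩ := muconv (m := wt muR) (g := wt β) wt_mu_le (mu_input hmu) hδ0
    (E := E) (Cg := Cg) (fun M hM => by
      have := hE M hM
      simpa only [wt_apply] using this) (by positivity) hab
  refine ⟨C', hC', fun N hN => ?_⟩
  have h1 := h N hN
  have eβ : muR * β = muR * b - e1 V := by
    rw [hβ, mul_sub, ← mul_assoc muR (e1 V), mul_comm muR (e1 V), mul_assoc (e1 V), muR_zeta,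
      mul_one]
  rw [← wt_mul, eβ, wt_sub', wt_e1] at h1
  have h2 : ∑ n ∈ Ioc 0 N, (wt (muR * b) - e1 V) n =
      ∑ n ∈ Ioc 0 N, wt (muR * b) n - V := by
    calc ∑ n ∈ Ioc 0 N, (wt (muR * b) - e1 V) n
        = ∑ n ∈ Ioc 0 N, (wt (muR * b) n - e1 V n) := rfl
      _ = _ := by rw [sum_sub_distrib, sum_e1 V hN]
  rw [h2] at h1
  exact h1

lemma log_sq_le {η : ℝ} (hη : 0 < η) {x : ℝ} (hx : 1 ≤ x) :
    (1 + Real.log x) ^ 2 ≤ (1 + 2 / η) ^ 2 * x ^ η := by
  have hx0 : 0 ≤ x := by linarith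
  have h1 : Real.log x ≤ x ^ (η / 2) / (η / 2) := Real.log_le_rpow_div hx0 (by positivity)
  have h2 : 1 ≤ x ^ (η / 2) := Real.one_le_rpow hx (by positivity)
  have h3 : 0 ≤ Real.log x := Real.log_nonneg hx
  have h4 : 1 + Real.log x ≤ (1 + 2 / η) * x ^ (η / 2) := by
    have : x ^ (η / 2) / (η / 2) = 2 / η * x ^ (η / 2) := by field_simp
    rw [this] at h1
    linarith
  calc (1 + Real.log x) ^ 2 ≤ ((1 + 2 / η) * x ^ (η / 2)) ^ 2 :=
        pow_le_pow_left₀ (by linarith) h4 2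
    _ = (1 + 2 / η) ^ 2 * (x ^ (η / 2) * x ^ (η / 2)) := by ring
    _ = (1 + 2 / η) ^ 2 * x ^ η := by
        rw [← Real.rpow_add (by linarith)]
        congr 2
        ring

/-- convolution with an absolutely convergent factor keeps the logarithmic saving -/
theorem absconv {u w : ArithmeticFunction ℝ} {V C η : ℝ} (hC : 0 ≤ C) (hη : 0 < η) (hη1 : η ≤ 1)
    (hu : ∀ N : ℕ, 1 ≤ N → |∑ n ∈ Ioc 0 N, u n - V| ≤ C / (1 + Real.log N) ^ 2)
    (hw : Summable (fun n : ℕ => |w n| * (n : ℝ) ^ η)) :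
    ∃ W C' : ℝ, 0 ≤ C' ∧ ∀ N : ℕ, 1 ≤ N →
      |∑ n ∈ Ioc 0 N, (u * w) n - W| ≤ C' / (1 + Real.log N) ^ 2 := by
  set K : ℝ := (1 + 2 / η) ^ 2 with hK
  have hK0 : 0 < K := by positivity
  set S0 : ℝ := ∑' n : ℕ, |w n| * (n : ℝ) ^ η with hS0
  have hnn : ∀ n : ℕ, 0 ≤ |w n| * (n : ℝ) ^ η := fun n =>
    mul_nonneg (abs_nonneg _) (Real.rpow_nonneg (Nat.cast_nonneg _) _)
  have hS00 : 0 ≤ S0 := tsum_nonneg hnn
  have hle1 : ∀ n : ℕ, |w n| ≤ |w n| * (n : ℝ) ^ η := by
    intro n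
    rcases Nat.eq_zero_or_pos n with rfl | hn
    · simp
    · have hn1 : (1 : ℝ) ≤ n := by exact_mod_cast hn
      exact le_mul_of_one_le_right (abs_nonneg _) (Real.one_le_rpow hn1 hη.le)
  have hs : Summable (fun n => w n) := by
    refine Summable.of_norm_bounded hw (fun n => ?_)
    rw [Real.norm_eq_abs]; exact hle1 n
  set Wt : ℝ := ∑' n, w n with hWt
  refine ⟨V * Wt, 2 * K * C * S0 + K * |V| * S0, by positivity, fun N hN => ?_⟩
  have hN1 : (1 : ℝ) ≤ N := by exact_mod_cast hN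
  have hN0 : (0 : ℝ) < N := by linarith
  set L : ℝ := 1 + Real.log N with hL
  have hL1 : 1 ≤ L := by
    have := Real.log_nonneg hN1
    linarith
  have hL0 : 0 < L := by linarith
  rw [mul_comm u w, sum_Ioc_mul_eq_sum_sum]
  have e : ∑ a ∈ Ioc 0 N, w a * ∑ b ∈ Ioc 0 (N / a), u b - V * Wt =
      ∑ a ∈ Ioc 0 N, w a * (∑ b ∈ Ioc 0 (N / a), u b - V) + V * (∑ a ∈ Ioc 0 N, w a - Wt) := by
    have : ∑ a ∈ Ioc 0 N, w a * (∑ b ∈ Ioc 0 (N / a), u b - V) =
        ∑ a ∈ Ioc 0 N, w a * ∑ b ∈ Ioc 0 (N / a), u b - V * ∑ a ∈ Ioc 0 N, w a := by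
      rw [mul_sum, ← sum_sub_distrib]
      exact sum_congr rfl fun _ _ => by ring
    rw [this]; ring
  rw [e]
  have b1 : |∑ a ∈ Ioc 0 N, w a * (∑ b ∈ Ioc 0 (N / a), u b - V)| ≤ 2 * K * C * S0 / L ^ 2 := by
    refine (abs_sum_le_sum_abs _ _).trans ?_
    have h1 : ∀ a ∈ Ioc 0 N, |w a * (∑ b ∈ Ioc 0 (N / a), u b - V)| ≤
        (2 * K * C / L ^ 2) * (|w a| * (a : ℝ) ^ η) := by
      intro a ha
      rw [mem_Ioc] at ha
      rw [abs_mul]
      have ha1 : (1 : ℝ) ≤ a := by exact_mod_cast ha.1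
      have ha0 : (0 : ℝ) < a := by linarith
      have hNa : 1 ≤ N / a := by
        rw [Nat.le_div_iff_mul_le ha.1]; omega
      set q : ℕ := N / a with hq
      have hq1 : (1 : ℝ) ≤ q := by exact_mod_cast hNa
      have h2 : (N : ℝ) ≤ (2 * a) * q := by
        have h3 : N < (N / a + 1) * a := by
          have := Nat.lt_div_mul_add (a := N) (b := a) ha.1
          nlinarith
        have h4 : (N : ℝ) < ((q : ℝ) + 1) * a := by exact_mod_cast h3
        nlinarith
      have h3 : Real.log N ≤ Real.log (2 * a) + Real.log q := by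
        rw [← Real.log_mul (by positivity) (by positivity)]
        exact Real.log_le_log hN0 h2
      have h4 : 0 ≤ Real.log q := Real.log_nonneg hq1
      have h5 : 0 ≤ Real.log (2 * a) := Real.log_nonneg (by linarith)
      have h6 : L ≤ (1 + Real.log (2 * a)) * (1 + Real.log q) := by
        rw [hL]; nlinarith
      have h7 : L ^ 2 ≤ 2 * K * (a : ℝ) ^ η * (1 + Real.log q) ^ 2 := by
        calc L ^ 2 ≤ ((1 + Real.log (2 * a)) * (1 + Real.log q)) ^ 2 :=
              pow_le_pow_left₀ hL0.le h6 2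
          _ = (1 + Real.log (2 * a)) ^ 2 * (1 + Real.log q) ^ 2 := by ring
          _ ≤ (K * (2 * (a : ℝ)) ^ η) * (1 + Real.log q) ^ 2 :=
              mul_le_mul_of_nonneg_right (log_sq_le hη (by linarith)) (by positivity)
          _ ≤ 2 * K * (a : ℝ) ^ η * (1 + Real.log q) ^ 2 := by
              apply mul_le_mul_of_nonneg_right _ (by positivity)
              rw [Real.mul_rpow (by norm_num) ha0.le]
              have h8 : (2 : ℝ) ^ η ≤ 2 := by
                calc (2 : ℝ) ^ η ≤ 2 ^ (1 : ℝ) :=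
                      Real.rpow_le_rpow_of_exponent_le (by norm_num) hη1
                  _ = 2 := Real.rpow_one 2
              have h9 : 0 ≤ (a : ℝ) ^ η := by positivity
              calc K * (2 ^ η * (a : ℝ) ^ η) ≤ K * (2 * (a : ℝ) ^ η) := by gcongr
                _ = _ := by ring
      have h8 := hu q hNa
      have h9 : C / (1 + Real.log q) ^ 2 ≤ 2 * K * C / L ^ 2 * (a : ℝ) ^ η := by
        rw [div_mul_eq_mul_div, div_le_div_iff₀ (by positivity) (by positivity)]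
        calc C * L ^ 2 ≤ C * (2 * K * (a : ℝ) ^ η * (1 + Real.log q) ^ 2) :=
              mul_le_mul_of_nonneg_left h7 hC
          _ = _ := by ring
      calc |w a| * |∑ b ∈ Ioc 0 q, u b - V| ≤ |w a| * (2 * K * C / L ^ 2 * (a : ℝ) ^ η) :=
            mul_le_mul_of_nonneg_left (h8.trans h9) (abs_nonneg _)
        _ = _ := by ring
    refine (sum_le_sum h1).trans ?_
    rw [← mul_sum]
    calc 2 * K * C / L ^ 2 * ∑ a ∈ Ioc 0 N, |w a| * (a : ℝ) ^ η ≤ 2 * K * C / L ^ 2 * S0 :=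
          mul_le_mul_of_nonneg_left (hw.sum_le_tsum _ (fun n _ => hnn n)) (by positivity)
      _ = _ := by ring
  have b2 : |∑ a ∈ Ioc 0 N, w a - Wt| ≤ K * S0 / L ^ 2 := by
    have h1 : ∑ n ∈ Ioc 0 N, w n = ∑ n ∈ range (N + 1), w n := by
      rw [← sum_subset (s₁ := Ioc 0 N) (s₂ := range (N + 1))]
      · intro n hn
        rw [mem_Ioc] at hn
        rw [mem_range]; omega
      · intro n hn hn'
        rw [mem_range] at hn
        rw [mem_Ioc] at hn'
        have : n = 0 := by omega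
        rw [this]; simp
    have h2 := hs.sum_add_tsum_nat_add (N + 1)
    rw [h1, hWt, ← h2, sub_add_cancel_left, abs_neg]
    have hs' : Summable (fun n => |w (n + (N + 1))| * ((n + (N + 1) : ℕ) : ℝ) ^ η) :=
      (summable_nat_add_iff (f := fun n : ℕ => |w n| * (n : ℝ) ^ η) (N + 1)).2 hw
    have h3 : ∀ n : ℕ, ‖w (n + (N + 1))‖ ≤
        (|w (n + (N + 1))| * ((n + (N + 1) : ℕ) : ℝ) ^ η) * (K / L ^ 2) := by
      intro n
      rw [Real.norm_eq_abs, mul_assoc]
      apply le_mul_of_one_le_right (abs_nonneg _)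
      have h4 : (N : ℝ) ^ η ≤ ((n + (N + 1) : ℕ) : ℝ) ^ η := by
        apply Real.rpow_le_rpow hN0.le _ hη.le
        push_cast
        have : (0 : ℝ) ≤ n := Nat.cast_nonneg n
        linarith
      have h5 := log_sq_le hη hN1
      rw [← mul_div_assoc, le_div_iff₀ (by positivity), one_mul]
      calc L ^ 2 ≤ K * (N : ℝ) ^ η := h5
        _ ≤ K * ((n + (N + 1) : ℕ) : ℝ) ^ η := by gcongr
        _ = _ := by ring
    have h4 := tsum_of_norm_bounded (hs'.mul_right (K / L ^ 2)).hasSum h3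
    rw [Real.norm_eq_abs] at h4
    refine h4.trans ?_
    rw [tsum_mul_right]
    have h5 := hw.sum_add_tsum_nat_add (N + 1)
    rw [← hS0] at h5
    have h6 : 0 ≤ ∑ n ∈ range (N + 1), |w n| * (n : ℝ) ^ η :=
      sum_nonneg fun n _ => hnn n
    calc _ ≤ S0 * (K / L ^ 2) := mul_le_mul_of_nonneg_right (by linarith) (by positivity)
      _ = _ := by ring
  refine (abs_add_le _ _).trans ?_
  rw [abs_mul]
  calc _ ≤ 2 * K * C * S0 / L ^ 2 + |V| * (K * S0 / L ^ 2) :=
        add_le_add b1 (mul_le_mul_of_nonneg_left b2 (abs_nonneg _))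
    _ = _ := by ring

end P004N.MF
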