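import Vale.Agent.P004N.H974.Fund
import Vale.Agent.P004.H26.R.Rem

/-!
# P004N: the combination over the divisors of the level
-/

open Finset

namespace P004N.T3

open Vale.Agent.P004.H26.H2 (dil PS sum_dil)

/-! ### linear combinations of sequences with power saving -/

theorem PS_add {f g : ℕ → ℝ} {V U : ℝ} (hf : PS f V) (hg : PS g U) :
    PS (fun k => f k + g k) (V + U) := by
  obtain ⟨C, δ, hC0, hδ, hδ1, hC⟩ := hf.norm
  obtain ⟨D, η, hD0, hη, hη1, hD⟩ := hg.norm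
  refine ⟨C + D, min δ η, lt_min hδ hη, fun x hx => ?_⟩
  have h1 := hC x hx 1 one_pos
  have h2 := hD x hx 1 one_pos
  simp only [Nat.cast_one, div_one] at h1 h2
  rw [sum_add_distrib]
  have e : ∑ k ∈ Icc 1 ⌊x⌋₊, f k + ∑ k ∈ Icc 1 ⌊x⌋₊, g k - (V + U) * x =
      (∑ k ∈ Icc 1 ⌊x⌋₊, f k - V * x) + (∑ k ∈ Icc 1 ⌊x⌋₊, g k - U * x) := by ring
  rw [e]
  refine (abs_add_le _ _).trans ?_
  have h3 : x ^ (1 - δ) ≤ x ^ (1 - min δ η) :=
    Real.rpow_le_rpow_of_exponent_le hx (by linarith [min_le_left δ η])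
  have h4 : x ^ (1 - η) ≤ x ^ (1 - min δ η) :=
    Real.rpow_le_rpow_of_exponent_le hx (by linarith [min_le_right δ η])
  calc |∑ k ∈ Icc 1 ⌊x⌋₊, f k - V * x| + |∑ k ∈ Icc 1 ⌊x⌋₊, g k - U * x| ≤
      C * x ^ (1 - δ) + D * x ^ (1 - η) := add_le_add h1 h2
    _ ≤ C * x ^ (1 - min δ η) + D * x ^ (1 - min δ η) := by gcongr
    _ = _ := by ring

theorem PS_dil {f : ℕ → ℝ} {V : ℝ} (hf : PS f V) (c : ℝ) {q : ℕ} (hq : 0 < q) :
    PS (fun k => c * dil q f k) (c * V / q) := by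
  obtain ⟨C, δ, hC0, hδ, hδ1, hC⟩ := hf.norm
  refine ⟨|c| * C, δ, hδ, fun x hx => ?_⟩
  have h2 := hC x hx q hq
  rw [← mul_sum, sum_dil hq]
  have e : c * ∑ k ∈ Icc 1 ⌊x / q⌋₊, f k - c * V / q * x =
      c * (∑ k ∈ Icc 1 ⌊x / q⌋₊, f k - V * (x / q)) := by ring
  rw [e, abs_mul, mul_assoc]
  gcongr

theorem PS_zero : PS (fun _ => 0) 0 := ⟨0, 1, one_pos, fun x _ => by simp⟩

theorem PS_sum {ι : Type*} (s : Finset ι) {F : ι → ℕ → ℝ} {V : ι → ℝ}
    (h : ∀ i ∈ s, PS (F i) (V i)) : PS (fun k => ∑ i ∈ s, F i k) (∑ i ∈ s, V i) := by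
  classical
  induction s using Finset.induction_on with
  | empty => simpa using PS_zero
  | insert i s hi ih =>
    simp_rw [sum_insert hi]
    exact PS_add (h i (mem_insert_self _ _)) (ih fun j hj => h j (mem_insert_of_mem hj))

/-! ### Moebius sums -/

open ArithmeticFunction in
theorem moebius_gcd {N : ℕ} (hN : 0 < N) (n : ℕ) :
    ∑ e ∈ N.divisors, (moebius e : ℝ) * (if e ∣ n then 1 else 0) =
      if n.Coprime N then 1 else 0 := by
  simp_rw [mul_ite, mul_one, mul_zero]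
  rw [← sum_filter]
  have h1 : N.divisors.filter (fun e => e ∣ n) = (n.gcd N).divisors := by
    ext e
    rw [mem_filter, Nat.mem_divisors, Nat.mem_divisors, Nat.dvd_gcd_iff]
    constructor
    · rintro ⟨⟨h1, _⟩, h2⟩
      exact ⟨⟨h2, h1⟩, Nat.gcd_ne_zero_right hN.ne'⟩
    · rintro ⟨⟨h1, h2⟩, _⟩
      exact ⟨⟨h2, hN.ne'⟩, h1⟩
  rw [h1]
  have h2 : (∑ e ∈ (n.gcd N).divisors, (moebius e : ℤ)) = if n.gcd N = 1 then 1 else 0 := by
    rw [← coe_mul_zeta_apply, moebius_mul_coe_zeta, one_apply]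
  have h3 : (∑ e ∈ (n.gcd N).divisors, (moebius e : ℝ)) =
      ((∑ e ∈ (n.gcd N).divisors, (moebius e : ℤ) : ℤ) : ℝ) := by push_cast; rfl
  rw [h3, h2]
  simp only [Nat.Coprime]
  split_ifs <;> simp

open ArithmeticFunction in
theorem moebius_tot {N : ℕ} (hN : 0 < N) :
    ∑ e ∈ N.divisors, (moebius e : ℝ) / e = (N.totient : ℝ) / N := by
  have h := (sum_eq_iff_sum_mul_moebius_eq (f := fun n : ℕ => (n.totient : ℝ))
    (g := fun n : ℕ => (n : ℝ))).1 (fun n _ => by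
      have := Nat.sum_totient n
      exact_mod_cast this) N hN
  rw [← h, Nat.sum_divisorsAntidiagonal (fun a b => (moebius a : ℝ) * (b : ℝ)), sum_div]
  refine sum_congr rfl fun e he => ?_
  have he1 := Nat.mem_divisors.1 he
  have he0 : 0 < e := Nat.pos_of_dvd_of_pos he1.1 hN
  have he' : (e : ℝ) ≠ 0 := by exact_mod_cast he0.ne'
  have hN' : (N : ℝ) ≠ 0 := by exact_mod_cast hN.ne'
  rw [Nat.cast_div he1.1 he']
  field_simp

/-! ### dilation of the double sums -/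

theorem dil_bB {e : ℕ} (he : 0 < e) {B B' : ℕ → ℕ → ℝ} (h : ∀ n m, B n m = B' (e * n) m) (k : ℕ) :
    dil (e ^ 2) (bB B) k = ∑ n ∈ (Icc 1 k).filter (fun n => n ^ 2 ∣ k),
      (B' n (k / n ^ 2) / ((k / n ^ 2 : ℕ) : ℝ)) * (if e ∣ n then 1 else 0) := by
  simp_rw [mul_ite, mul_one, mul_zero]
  rw [← sum_filter, filter_filter]
  unfold dil
  by_cases hk : e ^ 2 ∣ k
  · rw [if_pos hk]
    obtain ⟨j, rfl⟩ := hk
    rw [Nat.mul_div_cancel_left j (by positivity)]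
    unfold bB
    refine sum_nbij' (fun n => e * n) (fun n => n / e) ?_ ?_ ?_ ?_ ?_
    · intro n hn
      rw [mem_filter, mem_Icc] at hn ⊢
      obtain ⟨⟨h1, h2⟩, h3⟩ := hn
      refine ⟨⟨Nat.mul_pos he h1, ?_⟩, ?_, dvd_mul_right _ _⟩
      · exact Nat.mul_le_mul (Nat.le_self_pow (by norm_num) e) h2
      · rw [mul_pow]
        exact mul_dvd_mul dvd_rfl h3
    · intro n hn
      rw [mem_filter, mem_Icc] at hn ⊢
      obtain ⟨⟨h1, h2⟩, h3, m, rfl⟩ := hn
      rw [Nat.mul_div_cancel_left m he]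
      have h4 : m ^ 2 ∣ j := by
        rw [mul_pow] at h3
        exact (Nat.mul_dvd_mul_iff_left (show 0 < e ^ 2 by positivity)).1 h3
      have hm : 0 < m := Nat.pos_of_ne_zero (by rintro rfl; simp at h1)
      have hj : 0 < j := by
        rcases Nat.eq_zero_or_pos j with rfl | hj
        · exfalso; simp only [mul_zero] at h2; omega
        · exact hj
      refine ⟨⟨hm, ?_⟩, h4⟩
      calc m ≤ m ^ 2 := Nat.le_self_pow (by norm_num) m
        _ ≤ j := Nat.le_of_dvd hj h4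
    · intro n _
      exact Nat.mul_div_cancel_left n he
    · intro n hn
      rw [mem_filter] at hn
      exact Nat.mul_div_cancel' hn.2.2
    · intro n _
      rw [mul_pow, Nat.mul_div_mul_left j (n ^ 2) (show 0 < e ^ 2 by positivity), h]
  · rw [if_neg hk]
    symm
    apply sum_eq_zero
    intro n hn
    rw [mem_filter] at hn
    exfalso
    apply hk
    obtain ⟨m, hm⟩ := hn.2.2
    refine dvd_trans ?_ hn.2.1
    rw [hm]
    exact ⟨m ^ 2, by ring⟩

open UpperHalfPlane CongruenceSubgroup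
open scoped MatrixGroups Modular ModularForm Manifold Real

variable {N : ℕ} {f : ℍ → ℂ}

theorem BB_dil [NeZero N] {e : ℕ} (he : e ∣ N) (n m : ℕ) :
    BB N (N / e) f n m = BB N N f (e * n) m := by
  have hN : 0 < N := Nat.pos_of_ne_zero (NeZero.ne N)
  have he0 : 0 < e := Nat.pos_of_dvd_of_pos he hN
  unfold BB
  congr 1
  refine sum_congr rfl fun q _ => ?_
  have key : ((N / e : ℕ) : ℤ) ∣ (n : ℤ) * q.out 1 0 ↔ (N : ℤ) ∣ ((e * n : ℕ) : ℤ) * q.out 1 0 := by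
    obtain ⟨d, rfl⟩ := he
    rw [Nat.mul_div_cancel_left d he0]
    push_cast
    rw [mul_assoc, mul_dvd_mul_iff_left (by exact_mod_cast he0.ne')]
  simp only [key]

/-- the sum over the coprime `n` -/
theorem comb_eq [NeZero N] (k : ℕ) :
    ∑ e ∈ N.divisors, (ArithmeticFunction.moebius e : ℝ) * dil (e ^ 2) (bB (BB N (N / e) f)) k =
    ∑ n ∈ (Icc 1 k).filter (fun n => n ^ 2 ∣ k ∧ n.Coprime N),
      BB N N f n (k / n ^ 2) / ((k / n ^ 2 : ℕ) : ℝ) := by
  have hN : 0 < N := Nat.pos_of_ne_zero (NeZero.ne N)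
  have h1 : ∀ e ∈ N.divisors, (ArithmeticFunction.moebius e : ℝ) *
      dil (e ^ 2) (bB (BB N (N / e) f)) k =
      ∑ n ∈ (Icc 1 k).filter (fun n => n ^ 2 ∣ k),
      (BB N N f n (k / n ^ 2) / ((k / n ^ 2 : ℕ) : ℝ)) *
        ((ArithmeticFunction.moebius e : ℝ) * (if e ∣ n then 1 else 0)) := by
    intro e he
    have he1 := Nat.mem_divisors.1 he
    rw [dil_bB (Nat.pos_of_dvd_of_pos he1.1 hN) (fun n m => BB_dil he1.1 n m) k, mul_sum]
    refine sum_congr rfl fun n _ => ?_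
    ring
  rw [sum_congr rfl h1, sum_comm]
  have h2 : ∀ n ∈ (Icc 1 k).filter (fun n => n ^ 2 ∣ k),
      ∑ e ∈ N.divisors, (BB N N f n (k / n ^ 2) / ((k / n ^ 2 : ℕ) : ℝ)) *
        ((ArithmeticFunction.moebius e : ℝ) * (if e ∣ n then 1 else 0)) =
      if n.Coprime N then BB N N f n (k / n ^ 2) / ((k / n ^ 2 : ℕ) : ℝ) else 0 := by
    intro n _
    rw [← mul_sum, moebius_gcd hN n]
    split_ifs <;> simp
  rw [sum_congr rfl h2, ← sum_filter, filter_filter]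

theorem BB_cop [NeZero N] (hf : S2 N f) {n : ℕ} (hn : n.Coprime N) (m : ℕ) :
    BB N N f n m = N * ‖al N f 1 m‖ ^ 2 := by
  unfold BB
  congr 1
  have key : ∀ q : SL(2, ℤ) ⧸ Gamma0 N, (N : ℤ) ∣ (n : ℤ) * q.out 1 0 ↔
      q = ((1 : SL(2, ℤ)) : SL(2, ℤ) ⧸ Gamma0 N) := by
    intro q
    have h1 : (N : ℤ) ∣ (n : ℤ) * q.out 1 0 ↔ q.out ∈ Gamma0 N := by
      rw [Gamma0_mem, ZMod.intCast_zmod_eq_zero_iff_dvd]
      constructor
      · intro h
        exact (IsCoprime.dvd_of_dvd_mul_left (Nat.isCoprime_iff_coprime.2 hn.symm) h)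
      · intro h
        exact h.mul_left _
    rw [h1]
    constructor
    · intro h
      rw [← QuotientGroup.out_eq' q]
      rw [eq_comm, QuotientGroup.eq]
      simpa using h
    · rintro rfl
      have h2 : ((1 : SL(2, ℤ)) : SL(2, ℤ) ⧸ Gamma0 N) =
          (((1 : SL(2, ℤ)) : SL(2, ℤ) ⧸ Gamma0 N).out : SL(2, ℤ) ⧸ Gamma0 N) :=
        (QuotientGroup.out_eq' _).symm
      rw [QuotientGroup.eq] at h2
      simpa using h2
  rw [sum_eq_single (((1 : SL(2, ℤ)) : SL(2, ℤ) ⧸ Gamma0 N))]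
  · rw [if_pos ((key _).2 rfl)]
    have h3 : (((1 : SL(2, ℤ)) : SL(2, ℤ) ⧸ Gamma0 N).out)⁻¹ ∈ Gamma0 N := by
      apply inv_mem
      have h2 : ((1 : SL(2, ℤ)) : SL(2, ℤ) ⧸ Gamma0 N) =
          (((1 : SL(2, ℤ)) : SL(2, ℤ) ⧸ Gamma0 N).out : SL(2, ℤ) ⧸ Gamma0 N) :=
        (QuotientGroup.out_eq' _).symm
      rw [QuotientGroup.eq] at h2
      simpa using h2
    unfold al
    rw [hf.slash _ h3, slash_one']
  · intro q _ hq
    rw [if_neg]
    intro h
    exact hq ((key q).1 h)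
  · intro h
    exact absurd (mem_univ _) h

theorem hasSum_dil (hN : 0 < N) {c : ℕ → ℂ} (hq : QE f c) (τ : ℍ) :
    HasSum (fun m : ℕ => (if N ∣ m then c (m / N) else 0) •
      Function.Periodic.qParam (N : ℝ) (τ : ℂ) ^ m) (f τ) := by
  have hNc : (N : ℂ) ≠ 0 := by exact_mod_cast hN.ne'
  have hinj : Function.Injective (fun n : ℕ => N * n) := fun a b h =>
    Nat.eq_of_mul_eq_mul_left hN h
  have h1 := hq τ
  have h2 : ((fun m : ℕ => (if N ∣ m then c (m / N) else 0) •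
      Function.Periodic.qParam (N : ℝ) (τ : ℂ) ^ m) ∘ (fun n : ℕ => N * n)) =
      fun n : ℕ => c n * Complex.exp (2 * π * Complex.I * n * τ) := by
    funext n
    simp only [Function.comp_apply]
    rw [if_pos (dvd_mul_right _ _), Nat.mul_div_cancel_left n hN, smul_eq_mul,
      Function.Periodic.qParam, ← Complex.exp_nat_mul]
    congr 2
    push_cast
    field_simp
  rw [← h2] at h1
  refine (hinj.hasSum_iff ?_).1 h1
  intro k hk
  rw [if_neg, zero_smul]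
  rintro ⟨j, hj⟩
  exact hk ⟨j, hj.symm⟩

theorem coeff_uniq {h : ℝ} (hh : 0 < h) {F : ℍ → ℂ} (ha : AnalyticAt ℂ (cuspFunction h F) 0)
    {c d : ℕ → ℂ}
    (hc : ∀ τ : ℍ, HasSum (fun m => c m • Function.Periodic.qParam h (τ : ℂ) ^ m) (F τ))
    (hd : ∀ τ : ℍ, HasSum (fun m => d m • Function.Periodic.qParam h (τ : ℂ) ^ m) (F τ))
    (m : ℕ) : c m = d m := by
  have h1 := (hasFPowerSeriesOnBall_cuspFunction hh ha hc).hasFPowerSeriesAt
  have h2 := (hasFPowerSeriesOnBall_cuspFunction hh ha hd).hasFPowerSeriesAt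
  have h3 := congr_arg (FormalMultilinearSeries.coeff · m) (h1.eq_formalMultilinearSeries h2)
  simpa [FormalMultilinearSeries.coeff_ofScalars] using h3

theorem al_one (hN : 0 < N) (hf : S2 N f) {c : ℕ → ℂ} (hq : QE f c) (m : ℕ) :
    al N f 1 m = if N ∣ m then c (m / N) else 0 := by
  have hN' : (0 : ℝ) < N := by exact_mod_cast hN
  have hp := per hf 1
  have hmd := mdiff_slash hf 1
  have hb := bdd_slash hf 1
  unfold al
  rw [slash_one'] at hp hmd hb ⊢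
  exact coeff_uniq hN' (analyticAt_cuspFunction_zero hN' hp hmd hb)
    (hasSum_qExpansion hN' hp hmd hb) (hasSum_dil hN hq) m

/-- the coefficients of `ζ^{(N)}(2s) ∑ |c n|² / n n^{-s}` -/
noncomputable def bNc (N : ℕ) (c : ℕ → ℂ) (k : ℕ) : ℝ :=
  ∑ n ∈ (Finset.Icc 1 k).filter (fun n => n ^ 2 ∣ k ∧ n.Coprime N),
    ‖c (k / n ^ 2)‖ ^ 2 / ((k / n ^ 2 : ℕ) : ℝ)

theorem comb_dil [NeZero N] (hf : S2 N f) {c : ℕ → ℂ} (hq : QE f c) (k : ℕ) :
    ∑ e ∈ N.divisors, (ArithmeticFunction.moebius e : ℝ) * dil (e ^ 2) (bB (BB N (N / e) f)) k =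
    dil N (bNc N c) k := by
  have hN : 0 < N := Nat.pos_of_ne_zero (NeZero.ne N)
  have hN' : (N : ℝ) ≠ 0 := by exact_mod_cast hN.ne'
  rw [comb_eq]
  have h1 : ∀ n ∈ (Icc 1 k).filter (fun n => n ^ 2 ∣ k ∧ n.Coprime N),
      BB N N f n (k / n ^ 2) / ((k / n ^ 2 : ℕ) : ℝ) =
      if N ∣ k / n ^ 2 then N * ‖c (k / n ^ 2 / N)‖ ^ 2 / ((k / n ^ 2 : ℕ) : ℝ) else 0 := by
    intro n hn
    rw [BB_cop hf (mem_filter.1 hn).2.2, al_one hN hf hq]
    split_ifs <;> simp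
  rw [sum_congr rfl h1, ← sum_filter, filter_filter]
  unfold dil
  by_cases hk : N ∣ k
  · rw [if_pos hk]
    obtain ⟨j, rfl⟩ := hk
    rw [Nat.mul_div_cancel_left j hN]
    unfold bNc
    have hset : (Icc 1 (N * j)).filter (fun n => (n ^ 2 ∣ N * j ∧ n.Coprime N) ∧
        N ∣ N * j / n ^ 2) = (Icc 1 j).filter (fun n => n ^ 2 ∣ j ∧ n.Coprime N) := by
      ext n
      rw [mem_filter, mem_filter, mem_Icc, mem_Icc]
      constructor
      · rintro ⟨⟨h1, h2⟩, ⟨h3, h4⟩, h5⟩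
        have h6 : n ^ 2 ∣ j := (Nat.Coprime.pow_left 2 h4).dvd_of_dvd_mul_left h3
        have hj : 0 < j := by
          rcases Nat.eq_zero_or_pos j with rfl | hj
          · exfalso; simp only [mul_zero] at h2; omega
          · exact hj
        refine ⟨⟨h1, ?_⟩, h6, h4⟩
        calc n ≤ n ^ 2 := Nat.le_self_pow (by norm_num) n
          _ ≤ j := Nat.le_of_dvd hj h6
      · rintro ⟨⟨h1, h2⟩, h3, h4⟩
        refine ⟨⟨h1, h2.trans (Nat.le_mul_of_pos_left j hN)⟩, ⟨h3.mul_left _, h4⟩, ?_⟩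
        rw [Nat.mul_div_assoc _ h3]
        exact dvd_mul_right _ _
    rw [hset]
    refine sum_congr rfl fun n hn => ?_
    have h3 := (mem_filter.1 hn).2.1
    rw [Nat.mul_div_assoc _ h3, Nat.mul_div_cancel_left _ hN]
    push_cast
    rw [mul_div_mul_left _ _ hN']
  · rw [if_neg hk]
    apply sum_eq_zero
    intro n hn
    rw [mem_filter] at hn
    exfalso
    apply hk
    rw [← Nat.mul_div_cancel' hn.2.1.1]
    exact hn.2.2.mul_left _

/-- **The Rankin-Selberg mean value for cusp forms of weight two on `Γ₀(N)`**, with the explicit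
constant -/
theorem RS [NeZero N] (hsym : StSym) (hf : S2 N f) {c : ℕ → ℂ} (hq : QE f c)
    (hne : ∃ z, f z ≠ 0) : PS (bNc N c)
      (8 * π ^ 3 * (N.totient : ℝ) / N ^ 2 * (PN N f).toReal) := by
  have hN : 0 < N := Nat.pos_of_ne_zero (NeZero.ne N)
  have hN' : (0 : ℝ) < N := by exact_mod_cast hN
  have h1 : PS (fun k => ∑ e ∈ N.divisors, (ArithmeticFunction.moebius e : ℝ) *
      dil (e ^ 2) (bB (BB N (N / e) f)) k)
      (∑ e ∈ N.divisors, (ArithmeticFunction.moebius e : ℝ) *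
        (8 * π ^ 3 * (PN N f).toReal / ((N / e : ℕ) * N)) / ((e ^ 2 : ℕ) : ℝ)) := by
    refine PS_sum _ fun e he => ?_
    have he1 := Nat.mem_divisors.1 he
    have he0 : 0 < e := Nat.pos_of_dvd_of_pos he1.1 hN
    refine PS_dil ?_ _ (by positivity)
    exact bM_mean hsym hf hne (Nat.div_dvd_of_dvd he1.1)
  have h2 : (fun k => ∑ e ∈ N.divisors, (ArithmeticFunction.moebius e : ℝ) *
      dil (e ^ 2) (bB (BB N (N / e) f)) k) = dil N (bNc N c) := funext fun k => comb_dil hf hq k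
  rw [h2] at h1
  have h3 : ∑ e ∈ N.divisors, (ArithmeticFunction.moebius e : ℝ) *
        (8 * π ^ 3 * (PN N f).toReal / ((N / e : ℕ) * N)) / ((e ^ 2 : ℕ) : ℝ) =
      8 * π ^ 3 * (N.totient : ℝ) / N ^ 3 * (PN N f).toReal := by
    have h4 : ∀ e ∈ N.divisors, (ArithmeticFunction.moebius e : ℝ) *
        (8 * π ^ 3 * (PN N f).toReal / ((N / e : ℕ) * N)) / ((e ^ 2 : ℕ) : ℝ) =
        (8 * π ^ 3 * (PN N f).toReal / N ^ 2) * ((ArithmeticFunction.moebius e : ℝ) / e) := by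
      intro e he
      have he1 := Nat.mem_divisors.1 he
      have he0 : 0 < e := Nat.pos_of_dvd_of_pos he1.1 hN
      have he' : (e : ℝ) ≠ 0 := by exact_mod_cast he0.ne'
      rw [Nat.cast_div he1.1 he']
      push_cast
      field_simp
    rw [sum_congr rfl h4, ← mul_sum, moebius_tot hN]
    field_simp
  rw [h3] at h1
  obtain ⟨C, δ, hδ, h⟩ := h1
  refine ⟨C * N ^ (1 - δ), δ, hδ, fun x hx => ?_⟩
  have hNx : 1 ≤ N * x := by
    have : (1 : ℝ) ≤ N := by exact_mod_cast hN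
    nlinarith
  have h5 := h (N * x) hNx
  rw [sum_dil hN, mul_div_assoc, mul_comm (N : ℝ) (x / N), div_mul_cancel₀ _ hN'.ne'] at h5
  rw [Real.mul_rpow hN'.le (by linarith)] at h5
  rw [mul_assoc C]
  refine le_trans (le_of_eq ?_) h5
  congr 2
  field_simp

end P004N.T3
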