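import Vale.Agent.P004N.H974.Forms

/-!
# P004N: sums over the cosets of `Γ₀(N)`, and the functional equation
-/

open UpperHalfPlane hiding I
open Complex MeasureTheory Set Filter CongruenceSubgroup
open scoped MatrixGroups Modular ModularForm Manifold ENNReal Real Topology

namespace P004N.T3

open Vale.Agent.P004.H26.H86

noncomputable instance fintypeQ (N : ℕ) [NeZero N] : Fintype (SL(2, ℤ) ⧸ Gamma0 N) :=
  Subgroup.fintypeQuotientOfFiniteIndex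

theorem out_eq {Γ : Subgroup SL(2, ℤ)} {X : Type*} {φ : SL(2, ℤ) → X}
    (hφ : ∀ g, ∀ γ ∈ Γ, φ (g * γ) = φ g) (g : SL(2, ℤ)) :
    φ (Quotient.out (g : SL(2, ℤ) ⧸ Γ)) = φ g := by
  obtain ⟨h, hh⟩ := QuotientGroup.mk_out_eq_mul Γ g
  rw [hh]
  exact hφ g h h.2

theorem sum_transl {N : ℕ} [NeZero N] {X : Type*} [AddCommMonoid X] {φ : SL(2, ℤ) → X}
    (hφ : ∀ g, ∀ γ ∈ Gamma0 N, φ (g * γ) = φ g) (h : SL(2, ℤ)) :
    ∑ q : SL(2, ℤ) ⧸ Gamma0 N, φ (h * q.out) = ∑ q : SL(2, ℤ) ⧸ Gamma0 N, φ q.out := by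
  rw [← Equiv.sum_comp (MulAction.toPerm h) (fun q : SL(2, ℤ) ⧸ Gamma0 N => φ q.out)]
  refine Finset.sum_congr rfl fun q _ => ?_
  have h1 : (MulAction.toPerm h) q = ((h * q.out : SL(2, ℤ)) : SL(2, ℤ) ⧸ Gamma0 N) := by
    show h • q = _
    conv_lhs => rw [← QuotientGroup.out_eq' q]
    rfl
  rw [h1, out_eq hφ]

/-- the weight `1[M ∣ v₁]` -/
noncomputable def cw (M : ℕ) (v : ℤ × ℤ) : ℝ≥0∞ := if (M : ℤ) ∣ v.1 then 1 else 0

theorem cw_inv {M N : ℕ} (hMN : M ∣ N) {γ : SL(2, ℤ)} (hγ : γ ∈ Gamma0 N) (v : ℤ × ℤ) :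
    cw M (rv v γ) = cw M v := by
  have hc : (M : ℤ) ∣ γ 1 0 := by
    have h1 : (N : ℤ) ∣ γ 1 0 := by
      rw [Gamma0_mem] at hγ
      exact (ZMod.intCast_zmod_eq_zero_iff_dvd _ _).1 hγ
    exact (Int.natCast_dvd_natCast.2 hMN).trans h1
  have hdet : γ 0 0 * γ 1 1 - γ 0 1 * γ 1 0 = 1 := by
    have := γ.2; rwa [Matrix.det_fin_two] at this
  have key : (M : ℤ) ∣ (rv v γ).1 ↔ (M : ℤ) ∣ v.1 := by
    simp only [rv]
    constructor
    · intro h
      have h1 : (M : ℤ) ∣ v.1 * γ 0 0 := by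
        have := dvd_sub h (hc.mul_left v.2)
        simpa using this
      have h2 : v.1 = (v.1 * γ 0 0) * γ 1 1 - (v.1 * γ 0 1) * γ 1 0 := by
        linear_combination (-v.1) * hdet
      rw [h2]
      exact dvd_sub (h1.mul_right _) (hc.mul_left _)
    · intro h
      exact dvd_add (h.mul_right _) (hc.mul_left _)
  simp only [cw, key]

variable {N : ℕ} {f : ℍ → ℂ}

/-- the weighted sum over the cosets -/
noncomputable def EE (N M : ℕ) [NeZero N] (f : ℍ → ℂ) (v : ℤ × ℤ) (z : ℍ) : ℝ≥0∞ :=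
  ∑ q : SL(2, ℤ) ⧸ Gamma0 N, cw M (rv v q.out) * ENNReal.ofReal (G f (q.out⁻¹ • z))

theorem EE_meas [NeZero N] (hf : S2 N f) (M : ℕ) (v : ℤ × ℤ) : Measurable (EE N M f v) := by
  unfold EE
  refine Finset.measurable_fun_sum _ fun q _ => measurable_const.mul ?_
  refine ENNReal.measurable_ofReal.comp ?_
  rw [Gg_eq]
  exact (G_cont (cont_slash hf _)).measurable

theorem EE_equiv [NeZero N] (hf : S2 N f) {M : ℕ} (hMN : M ∣ N) (v : ℤ × ℤ) (γ : SL(2, ℤ))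
    (z : ℍ) : EE N M f (rv v γ) z = EE N M f v (γ • z) := by
  unfold EE
  have hφ : ∀ g, ∀ δ ∈ Gamma0 N, cw M (rv v (g * δ)) * ENNReal.ofReal (G f ((g * δ)⁻¹ • γ • z)) =
      cw M (rv v g) * ENNReal.ofReal (G f (g⁻¹ • γ • z)) := by
    intro g δ hδ
    rw [rv_mul, cw_inv hMN hδ, mul_inv_rev, mul_smul, G_inv hf (inv_mem hδ)]
  rw [← sum_transl (φ := fun g => cw M (rv v g) * ENNReal.ofReal (G f (g⁻¹ • γ • z))) hφ γ]
  refine Finset.sum_congr rfl fun q _ => ?_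
  rw [rv_mul, mul_inv_rev, mul_smul, inv_smul_smul]

/-- the invariant density on `SL(2, ℤ)` -/
noncomputable def HH (N : ℕ) [NeZero N] (f : ℍ → ℂ) (z : ℍ) : ℝ≥0∞ :=
  ∑ q : SL(2, ℤ) ⧸ Gamma0 N, ENNReal.ofReal (G f (q.out⁻¹ • z))

theorem EE_zero [NeZero N] (M : ℕ) (z : ℍ) : EE N M f 0 z = HH N f z := by
  unfold EE HH
  refine Finset.sum_congr rfl fun q _ => ?_
  rw [rv_zero, cw, if_pos (by simp), one_mul]

theorem HH_meas [NeZero N] (hf : S2 N f) : Measurable (HH N f) := by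
  have h : HH N f = EE N 1 f 0 := funext fun z => (EE_zero 1 z).symm
  rw [h]
  exact EE_meas hf 1 0

theorem HH_inv [NeZero N] (hf : S2 N f) (γ : SL(2, ℤ)) (z : ℍ) : HH N f (γ • z) = HH N f z := by
  rw [← EE_zero N, ← EE_zero N, ← EE_equiv hf dvd_rfl, rv_zero]

/-- the square of the Petersson norm -/
noncomputable def PN (N : ℕ) [NeZero N] (f : ℍ → ℂ) : ℝ≥0∞ := ∫⁻ z in (𝒟 : Set ℍ), HH N f z

/-! ### the theta function of the lattice `M ∣ v₁` -/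

theorem cwth {M : ℕ} (hM : 0 < M) {t : ℝ} (z : ℍ) :
    ∑' v : ℤ × ℤ, cw M v * ENNReal.ofReal (Real.exp (-(π * t * Qf v z))) =
    ∑' p : ℤ × ℤ, ENNReal.ofReal (Real.exp (-(π * (M * t) *
      ((p.1 * (M * z.re) + p.2) ^ 2 + (p.1 * (M * z.im)) ^ 2) / (M * z.im)))) := by
  have hM' : (M : ℝ) ≠ 0 := by exact_mod_cast hM.ne'
  have hMz : (M : ℤ) ≠ 0 := by exact_mod_cast hM.ne'
  have hinj : Function.Injective (fun p : ℤ × ℤ => ((M : ℤ) * p.1, p.2)) := by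
    rintro ⟨a, b⟩ ⟨c, d⟩ h
    have h1 := congrArg Prod.fst h
    have h2 := congrArg Prod.snd h
    simp only at h1 h2
    exact Prod.ext (mul_left_cancel₀ hMz h1) h2
  rw [← hinj.tsum_eq]
  · refine tsum_congr fun p => ?_
    rw [cw, if_pos (dvd_mul_right _ _), one_mul]
    congr 2
    rw [Qf]
    have hy : z.im ≠ 0 := z.im_ne_zero
    push_cast
    field_simp
  · intro v hv
    rw [Function.mem_support] at hv
    by_cases h : (M : ℤ) ∣ v.1
    · obtain ⟨a, ha⟩ := h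
      exact ⟨(a, v.2), Prod.ext ha.symm rfl⟩
    · exfalso; apply hv; rw [cw, if_neg h, zero_mul]

theorem th_fe {M : ℕ} (hM : 0 < M) {t : ℝ} (ht : 0 < t) (z : ℍ) :
    ∑' v : ℤ × ℤ, cw M v * ENNReal.ofReal (Real.exp (-(π * (1 / (M ^ 2 * t)) * Qf v z))) =
    ENNReal.ofReal (M * t) *
      ∑' v : ℤ × ℤ, cw M v * ENNReal.ofReal (Real.exp (-(π * t * Qf v z))) := by
  have hM' : (0 : ℝ) < M := by exact_mod_cast hM
  have hy : 0 < M * z.im := mul_pos hM' z.im_pos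
  have hMt : 0 < M * t := by positivity
  rw [cwth hM, cwth hM]
  have e : (M : ℝ) * (1 / (M ^ 2 * t)) = 1 / (M * t) := by field_simp
  rw [e]
  have h1 := Vale.Agent.P004H.H2.theta_inv (x := M * z.re) hy hMt
  have s1 := Vale.Agent.P004H.H2.theta_summable (x := M * z.re) hy hMt
  have s2 := Vale.Agent.P004H.H2.theta_summable (x := M * z.re) hy (one_div_pos.mpr hMt)
  rw [← ENNReal.ofReal_tsum_of_nonneg (fun _ => (Real.exp_pos _).le) s1,
      ← ENNReal.ofReal_tsum_of_nonneg (fun _ => (Real.exp_pos _).le) s2, h1,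
      ENNReal.ofReal_mul hMt.le]

/-- the integral over the fundamental domain -/
noncomputable def AA (N M : ℕ) [NeZero N] (f : ℍ → ℂ) (t : ℝ) : ℝ≥0∞ :=
  ∫⁻ z in (𝒟 : Set ℍ), ∑' v : ℤ × ℤ, EE N M f v z * ENNReal.ofReal (Real.exp (-(π * t * Qf v z)))

theorem AA_eq [NeZero N] {M : ℕ} (t : ℝ) (z : ℍ) :
    ∑' v : ℤ × ℤ, EE N M f v z * ENNReal.ofReal (Real.exp (-(π * t * Qf v z))) =
      ∑ q : SL(2, ℤ) ⧸ Gamma0 N, ENNReal.ofReal (G f (q.out⁻¹ • z)) *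
        ∑' v : ℤ × ℤ, cw M v * ENNReal.ofReal (Real.exp (-(π * t * Qf v (q.out⁻¹ • z)))) := by
  unfold EE
  simp_rw [Finset.sum_mul]
  rw [Summable.tsum_finsetSum fun _ _ => ENNReal.summable]
  refine Finset.sum_congr rfl fun q _ => ?_
  rw [← (rvE (q.out⁻¹)).tsum_eq (fun v : ℤ × ℤ => cw M (rv v q.out) *
    ENNReal.ofReal (G f (q.out⁻¹ • z)) * ENNReal.ofReal (Real.exp (-(π * t * Qf v z))))]
  rw [← ENNReal.tsum_mul_left]
  refine tsum_congr fun v => ?_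
  have e1 : rvE (q.out⁻¹) v = rv v (q.out⁻¹) := rfl
  rw [e1, ← rv_mul, inv_mul_cancel, rv_one, Qf_smul]
  ring

theorem AA_fe [NeZero N] {M : ℕ} (hM : 0 < M) {t : ℝ} (ht : 0 < t) :
    AA N M f (1 / (M ^ 2 * t)) = ENNReal.ofReal (M * t) * AA N M f t := by
  unfold AA
  rw [← lintegral_const_mul' _ _ ENNReal.ofReal_ne_top]
  refine lintegral_congr fun z => ?_
  rw [AA_eq, AA_eq, Finset.mul_sum]
  refine Finset.sum_congr rfl fun q _ => ?_
  rw [th_fe hM ht]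
  ring

theorem split0 (f : ℤ × ℤ → ℝ≥0∞) : ∑' v : ℤ × ℤ, f v = f 0 + ∑' v : NV, f v := by
  have h := ENNReal.summable.tsum_add_tsum_compl (s := ({0} : Set (ℤ × ℤ))) (f := f) ENNReal.summable
  rw [← h, tsum_singleton]
  congr 1

/-! ### the unfolded side -/

/-- the double coefficients -/
noncomputable def BB (N M : ℕ) [NeZero N] (f : ℍ → ℂ) (n m : ℕ) : ℝ :=
  N * ∑ q : SL(2, ℤ) ⧸ Gamma0 N,
    if (M : ℤ) ∣ n * q.out 1 0 then ‖al N f q.out⁻¹ m‖ ^ 2 else 0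

theorem BB_nonneg [NeZero N] (M n m : ℕ) : 0 ≤ BB N M f n m := by
  unfold BB
  refine mul_nonneg (Nat.cast_nonneg _) (Finset.sum_nonneg fun q _ => ?_)
  split_ifs
  · positivity
  · exact le_rfl

open Vale.Agent.P004.H26.H392 (W W_nonneg)

theorem AA_unf [NeZero N] (hf : S2 N f) {M : ℕ} (hMN : M ∣ N) {t : ℝ} (ht : 0 < t) :
    AA N M f t = PN N f + ∑' k : ℕ, ENNReal.ofReal (bB (BB N M f) k * W (k * t / N)) := by
  have hN : 0 < N := Nat.pos_of_ne_zero (NeZero.ne N)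
  have hN' : (0 : ℝ) < N := by exact_mod_cast hN
  unfold AA PN
  simp_rw [split0]
  have e0 : ∀ z : ℍ, EE N M f 0 z * ENNReal.ofReal (Real.exp (-(π * t * Qf 0 z))) = HH N f z := by
    intro z
    rw [EE_zero]
    simp [Qf]
  simp_rw [e0]
  rw [lintegral_add_left (HH_meas hf), unf hN (fun v => EE_meas hf M v)
    (fun v γ z => EE_equiv hf hMN v γ z) t]
  congr 1
  rw [← rearrB (B := BB N M f) (fun n m => BB_nonneg M n m) (φ := fun k => W (k * t / N))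
    (fun k => W_nonneg _), ← ENNReal.tsum_mul_left]
  refine tsum_congr fun n => ?_
  have h1 : ∀ z : ℍ, EE N M f (0, (n : ℤ) + 1) z *
      (SN N z * ENNReal.ofReal (Real.exp (-(π * (t * ((n : ℝ) + 1) ^ 2) / z.im)))) =
      ∑ q : SL(2, ℤ) ⧸ Gamma0 N, cw M (rv (0, (n : ℤ) + 1) q.out) *
        (ENNReal.ofReal (G f (q.out⁻¹ • z)) *
        (SN N z * ENNReal.ofReal (Real.exp (-(π * (t * ((n : ℝ) + 1) ^ 2) / z.im))))) := by
    intro z
    rw [EE, Finset.sum_mul]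
    refine Finset.sum_congr rfl fun q _ => ?_
    ring
  simp_rw [h1]
  have hmG : ∀ g : SL(2, ℤ), Measurable fun z : ℍ => G f (g • z) := fun g => by
    rw [Gg_eq]; exact (G_cont (cont_slash hf g)).measurable
  have hmm : ∀ q : SL(2, ℤ) ⧸ Gamma0 N, Measurable fun z : ℍ =>
      (ENNReal.ofReal (G f (q.out⁻¹ • z)) *
        (SN N z * ENNReal.ofReal (Real.exp (-(π * (t * ((n : ℝ) + 1) ^ 2) / z.im))))) := by
    intro q
    refine (ENNReal.measurable_ofReal.comp (hmG _)).mul ((measurable_SN N).mul ?_)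
    exact ENNReal.measurable_ofReal.comp
      (Real.measurable_exp.comp ((measurable_const.div meas_im).neg))
  rw [lintegral_finsetSum _ (fun q _ => (hmm q).const_mul _)]
  have h2 : ∀ q : SL(2, ℤ) ⧸ Gamma0 N, ∫⁻ z : ℍ, cw M (rv (0, (n : ℤ) + 1) q.out) *
        (ENNReal.ofReal (G f (q.out⁻¹ • z)) *
        (SN N z * ENNReal.ofReal (Real.exp (-(π * (t * ((n : ℝ) + 1) ^ 2) / z.im))))) =
      ∑' m : ℕ, cw M (rv (0, (n : ℤ) + 1) q.out) *
        ENNReal.ofReal (N * ‖al N f q.out⁻¹ m‖ ^ 2 / (2 * m) *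
          W (t * ((n : ℝ) + 1) ^ 2 * m / N)) := by
    intro q
    rw [lintegral_const_mul _ (hmm q), H_intN hN (hmG _) (β := fun m => ‖al N f q.out⁻¹ m‖ ^ 2)
      (fun m => by positivity) (by simp [al_zero hN hf]) (mean hN hf _) (by positivity),
      ENNReal.tsum_mul_left]
  simp_rw [h2]
  rw [← Summable.tsum_finsetSum fun _ _ => ENNReal.summable, ← ENNReal.tsum_mul_left]
  refine tsum_congr fun m => ?_
  have h3 : ∀ q : SL(2, ℤ) ⧸ Gamma0 N, cw M (rv (0, (n : ℤ) + 1) q.out) *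
        ENNReal.ofReal (N * ‖al N f q.out⁻¹ m‖ ^ 2 / (2 * m) *
          W (t * ((n : ℝ) + 1) ^ 2 * m / N)) =
      ENNReal.ofReal ((if (M : ℤ) ∣ ((n + 1 : ℕ) : ℤ) * q.out 1 0 then ‖al N f q.out⁻¹ m‖ ^ 2
        else 0) * (N / (2 * m) * W (t * ((n : ℝ) + 1) ^ 2 * m / N))) := by
    intro q
    have e : (rv (0, (n : ℤ) + 1) q.out).1 = ((n + 1 : ℕ) : ℤ) * q.out 1 0 := by
      simp only [rv, zero_mul, zero_add]; push_cast; rfl
    rw [cw, e]
    split_ifs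
    · rw [one_mul]; congr 1; ring
    · simp
  simp_rw [h3]
  have hW : 0 ≤ (N : ℝ) / (2 * m) * W (t * ((n : ℝ) + 1) ^ 2 * m / N) :=
    mul_nonneg (by positivity) (W_nonneg _)
  rw [← ENNReal.ofReal_sum_of_nonneg (fun q _ => mul_nonneg (by split_ifs <;> positivity) hW),
    show (2 : ℝ≥0∞) = ENNReal.ofReal 2 by simp, ← ENNReal.ofReal_mul (by norm_num)]
  congr 1
  rw [← Finset.sum_mul, BB]
  have e1 : t * ((n : ℝ) + 1) ^ 2 * m / N = (((n + 1) ^ 2 * m : ℕ) : ℝ) * t / N := by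
    push_cast; ring
  rw [e1]
  rcases Nat.eq_zero_or_pos m with rfl | hm0
  · simp
  · have : (m : ℝ) ≠ 0 := by exact_mod_cast hm0.ne'
    field_simp

end P004N.T3
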