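import Vale.Agent.P004N.H974.Unfold

/-!
# P004N: the integral over the strip
-/

open UpperHalfPlane MeasureTheory Set
open scoped MatrixGroups Modular ENNReal Real

namespace P004N.T3

open Vale.Agent.P004.H26.H86
open Vale.Agent.P004.H26.H392 (W wi W_nonneg)

/-- mean over horocycles of period `N` -/
def MeanN (N : ℕ) (G : ℍ → ℝ) (β : ℕ → ℝ) : Prop := ∀ y : ℝ, 0 < y →
  ∫⁻ x in Ico (0 : ℝ) N, ENNReal.ofReal (G (ofComplex (⟨x, y⟩ : ℂ))) =
    N * ∑' m : ℕ, ENNReal.ofReal (y ^ 2 * (β m * Real.exp (-(4 * π * m * y / N))))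

theorem J1N {N : ℕ} (hN : 0 < N) {β u : ℝ} (hβ : 0 ≤ β) (hu : 0 ≤ u) {m : ℕ} (hm : 0 < m) :
    ∫⁻ y in Ioi (0 : ℝ), ENNReal.ofReal (Real.exp (-(π * u / y)) *
      (β * Real.exp (-(4 * π * m * y / N)))) =
      ENNReal.ofReal (N * β / (2 * m) * W (u * m / N)) := by
  have hm' : (0 : ℝ) < m := by exact_mod_cast hm
  have hN' : (0 : ℝ) < N := by exact_mod_cast hN
  have h1 := J1 (u := u) hm' hu (κ := N) hN'
  have e : ∀ y : ℝ, ENNReal.ofReal (Real.exp (-(π * u / y)) *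
      (β * Real.exp (-(4 * π * m * y / N)))) =
      ENNReal.ofReal (N * β) * ENNReal.ofReal (Real.exp (-(π * u / y)) *
        (Real.exp (-(4 * π * m * y / N)) / N)) := by
    intro y
    rw [← ENNReal.ofReal_mul (by positivity)]
    congr 1
    field_simp
  simp_rw [e]
  rw [lintegral_const_mul _ (by fun_prop), h1, ← ENNReal.ofReal_mul (by positivity)]
  congr 1
  ring

theorem H_intN {N : ℕ} (hN : 0 < N) {G : ℍ → ℝ} (hm : Measurable G) {β : ℕ → ℝ}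
    (hβ : ∀ m, 0 ≤ β m) (hβ0 : β 0 = 0) (hM : MeanN N G β) {u : ℝ} (hu : 0 ≤ u) :
    ∫⁻ z : ℍ, ENNReal.ofReal (G z) *
      (SN N z * ENNReal.ofReal (Real.exp (-(π * u / z.im)))) =
      ∑' m : ℕ, ENNReal.ofReal (N * β m / (2 * m) * W (u * m / N)) := by
  have hN' : (0 : ℝ) < N := by exact_mod_cast hN
  rw [lint_H]
  swap
  · refine (ENNReal.measurable_ofReal.comp hm).mul ((measurable_SN N).mul ?_)
    exact ENNReal.measurable_ofReal.comp
      (Real.measurable_exp.comp ((measurable_const.div meas_im).neg))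
  have e : ∀ y ∈ Ioi (0 : ℝ), ∫⁻ x : ℝ, ENNReal.ofReal (G (ofComplex (⟨x, y⟩ : ℂ))) *
      (SN N (ofComplex (⟨x, y⟩ : ℂ)) *
        ENNReal.ofReal (Real.exp (-(π * u / (ofComplex (⟨x, y⟩ : ℂ)).im)))) *
          ENNReal.ofReal (1 / y ^ 2) =
      ∑' m : ℕ, ENNReal.ofReal (Real.exp (-(π * u / y)) *
        (β m * Real.exp (-(4 * π * m * y / N)))) := by
    intro y hy
    have hy' : (0 : ℝ) < y := hy
    have h1 : ∀ x : ℝ, ENNReal.ofReal (G (ofComplex (⟨x, y⟩ : ℂ))) *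
      (SN N (ofComplex (⟨x, y⟩ : ℂ)) *
        ENNReal.ofReal (Real.exp (-(π * u / (ofComplex (⟨x, y⟩ : ℂ)).im)))) *
          ENNReal.ofReal (1 / y ^ 2) =
        (Ico (0 : ℝ) N).indicator (fun x => ENNReal.ofReal (G (ofComplex (⟨x, y⟩ : ℂ)))) x *
          ((N : ℝ≥0∞)⁻¹ * ENNReal.ofReal (Real.exp (-(π * u / y)) * (1 / y ^ 2))) := by
      intro x
      have him : (ofComplex (⟨x, y⟩ : ℂ)).im = y := by
        rw [ofComplex_apply_of_im_pos (z := (⟨x, y⟩ : ℂ)) hy']; rfl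
      have hre : (ofComplex (⟨x, y⟩ : ℂ)).re = x := by
        rw [ofComplex_apply_of_im_pos (z := (⟨x, y⟩ : ℂ)) hy']; rfl
      rw [him, ENNReal.ofReal_mul (Real.exp_pos _).le, SN]
      by_cases hx : x ∈ Ico (0 : ℝ) N
      · rw [indicator_of_mem hx, indicator_of_mem]
        · ring
        · rw [mem_ofPred_eq, hre]; exact hx
      · rw [indicator_of_notMem hx, indicator_of_notMem]
        · ring
        · rw [mem_ofPred_eq, hre]; exact hx
    simp_rw [h1]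
    have hmH : Measurable fun x : ℝ => ENNReal.ofReal (G (ofComplex (⟨x, y⟩ : ℂ))) := by
      refine ENNReal.measurable_ofReal.comp (hm.comp (meas_ofC.comp ?_))
      have : (fun x : ℝ => (⟨x, y⟩ : ℂ)) = fun x : ℝ => (x : ℂ) + (y : ℂ) * Complex.I := by
        funext x; apply Complex.ext <;> simp
      rw [this]; fun_prop
    rw [lintegral_mul_const _ (hmH.indicator measurableSet_Ico), lintegral_indicator measurableSet_Ico,
      hM y hy']
    have h2 : (N : ℝ≥0∞) * (N : ℝ≥0∞)⁻¹ = 1 :=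
      ENNReal.mul_inv_cancel (by exact_mod_cast hN.ne') (ENNReal.natCast_ne_top N)
    set T := ∑' m : ℕ, ENNReal.ofReal (y ^ 2 * (β m * Real.exp (-(4 * π * m * y / N)))) with hT
    have h3 : (N : ℝ≥0∞) * T * ((N : ℝ≥0∞)⁻¹ *
        ENNReal.ofReal (Real.exp (-(π * u / y)) * (1 / y ^ 2))) =
        T * ENNReal.ofReal (Real.exp (-(π * u / y)) * (1 / y ^ 2)) := by
      calc _ = ((N : ℝ≥0∞) * (N : ℝ≥0∞)⁻¹) *
            (T * ENNReal.ofReal (Real.exp (-(π * u / y)) * (1 / y ^ 2))) := by ring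
        _ = _ := by rw [h2, one_mul]
    rw [h3, hT, ← ENNReal.tsum_mul_right]
    refine tsum_congr fun m => ?_
    rw [← ENNReal.ofReal_mul (by have := hβ m; positivity)]
    congr 1
    field_simp
  rw [setLIntegral_congr_fun measurableSet_Ioi e, lintegral_tsum]
  · refine tsum_congr fun m => ?_
    rcases Nat.eq_zero_or_pos m with rfl | hm0
    · simp [hβ0]
    · rw [J1N hN (hβ m) hu hm0]
  · intro m
    refine Measurable.aemeasurable ?_
    fun_prop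

/-! ### rearrangement of the double sum -/

/-- coefficients -/
noncomputable def bB (B : ℕ → ℕ → ℝ) (k : ℕ) : ℝ :=
  ∑ n ∈ (Finset.Icc 1 k).filter (fun n => n ^ 2 ∣ k), B n (k / n ^ 2) / ((k / n ^ 2 : ℕ) : ℝ)

theorem bB_nonneg {B : ℕ → ℕ → ℝ} (hB : ∀ n m, 0 ≤ B n m) (k : ℕ) : 0 ≤ bB B k :=
  Finset.sum_nonneg fun _ _ => div_nonneg (hB _ _) (Nat.cast_nonneg _)

theorem bB_zero (B : ℕ → ℕ → ℝ) : bB B 0 = 0 := by simp [bB]

theorem bB_le {B : ℕ → ℕ → ℝ} {c : ℕ → ℝ} (h : ∀ n m, B n m ≤ c m) (k : ℕ) :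
    bB B k ≤ bA c k :=
  Finset.sum_le_sum fun _ _ => div_le_div_of_nonneg_right (h _ _) (Nat.cast_nonneg _)

theorem rearrB {B : ℕ → ℕ → ℝ} (hB : ∀ n m, 0 ≤ B n m) {φ : ℕ → ℝ} (hφ : ∀ k, 0 ≤ φ k) :
    ∑' n : ℕ, ∑' m : ℕ, ENNReal.ofReal (B (n + 1) m / m * φ ((n + 1) ^ 2 * m)) =
      ∑' k : ℕ, ENNReal.ofReal (bB B k * φ k) := by
  have h1 : ∀ k : ℕ, ENNReal.ofReal (bB B k * φ k) = ∑' n : ℕ,
      if (n + 1) ^ 2 ∣ k ∧ 0 < k then
        ENNReal.ofReal (B (n + 1) (k / (n + 1) ^ 2) / ((k / (n + 1) ^ 2 : ℕ) : ℝ) * φ k)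
      else 0 := by
    intro k
    rw [bB, Finset.sum_mul, ENNReal.ofReal_sum_of_nonneg
      (fun n _ => mul_nonneg (div_nonneg (hB _ _) (Nat.cast_nonneg _)) (hφ _))]
    rw [tsum_eq_sum (s := Finset.range k)]
    · rw [Finset.sum_filter]
      have h2 : Finset.Icc 1 k = Finset.Ico 1 (k + 1) := by ext; simp
      rw [h2, Finset.sum_Ico_eq_sum_range, Nat.add_sub_cancel]
      refine Finset.sum_congr rfl fun n hn => ?_
      have h3 : 0 < k := by have := Finset.mem_range.mp hn; omega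
      rw [add_comm 1 n]
      by_cases h4 : (n + 1) ^ 2 ∣ k
      · rw [if_pos h4, if_pos ⟨h4, h3⟩]
      · rw [if_neg h4, if_neg (fun h => h4 h.1)]
    · intro n hn
      rw [if_neg]
      rintro ⟨h2, h3⟩
      apply hn
      rw [Finset.mem_range]
      have := Nat.le_of_dvd h3 h2
      nlinarith
  simp_rw [h1]
  rw [ENNReal.tsum_comm (f := fun k n : ℕ => if (n + 1) ^ 2 ∣ k ∧ 0 < k then
        ENNReal.ofReal (B (n + 1) (k / (n + 1) ^ 2) / ((k / (n + 1) ^ 2 : ℕ) : ℝ) * φ k) else 0)]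
  refine tsum_congr fun n => ?_
  have hinj : Function.Injective (fun m : ℕ => (n + 1) ^ 2 * m) := by
    intro m m' h
    exact Nat.eq_of_mul_eq_mul_left (by positivity) h
  refine Eq.trans ?_ (hinj.tsum_eq (f := fun k : ℕ => if (n + 1) ^ 2 ∣ k ∧ 0 < k then
        ENNReal.ofReal (B (n + 1) (k / (n + 1) ^ 2) / ((k / (n + 1) ^ 2 : ℕ) : ℝ) * φ k)
          else 0) ?_)
  · refine tsum_congr fun m => ?_
    have h2 : (n + 1) ^ 2 * m / (n + 1) ^ 2 = m := Nat.mul_div_cancel_left m (by positivity)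
    simp only [h2]
    rcases Nat.eq_zero_or_pos m with rfl | hm
    · simp
    · rw [if_pos ⟨dvd_mul_right _ _, by positivity⟩]
  · intro k hk
    rw [Function.mem_support] at hk
    have : (n + 1) ^ 2 ∣ k ∧ 0 < k := by
      by_contra h
      exact hk (if_neg h)
    obtain ⟨⟨m, hm⟩, -⟩ := this
    exact ⟨m, hm.symm⟩

/-! ### summability -/

theorem c_summ {c : ℕ → ℝ} (hc : ∀ m, 0 ≤ c m)
    (hb : ∃ C : ℝ, ∀ X : ℝ, 1 ≤ X → ∑ n ∈ Finset.Icc 1 ⌊X⌋₊, c n ≤ C * X ^ 2)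
    {σ : ℝ} (hσ : 1 < σ) : Summable fun m : ℕ => c m / m * (m : ℝ) ^ (-σ) := by
  obtain ⟨C, h⟩ := hb
  have hO : (fun n : ℕ => ∑ k ∈ Finset.Icc 1 n, c k) =O[Filter.atTop] fun n : ℕ => (n : ℝ) ^ (2 : ℝ) := by
    refine Asymptotics.IsBigO.of_bound C ?_
    filter_upwards [Filter.eventually_ge_atTop 1] with n hn
    have h1 := h n (by exact_mod_cast hn)
    rw [Nat.floor_natCast] at h1
    rw [Real.norm_of_nonneg (Finset.sum_nonneg fun k _ => hc k), Real.norm_of_nonneg (by positivity)]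
    exact_mod_cast h1
  have h2 := LSeriesSummable_of_sum_norm_bigO_and_nonneg (s := ((1 + σ : ℝ) : ℂ)) hO hc (by norm_num)
    (by rw [Complex.ofReal_re]; linarith)
  have h3 := h2.norm
  refine h3.congr fun m => ?_
  rw [LSeries.norm_term_eq]
  split_ifs with hm
  · simp [hm]
  · have hm' : (0 : ℝ) < m := by exact_mod_cast Nat.pos_of_ne_zero hm
    rw [Complex.ofReal_re, Complex.norm_real, Real.norm_of_nonneg (hc m), Real.rpow_add hm',
      Real.rpow_one, Real.rpow_neg hm'.le]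
    field_simp

theorem bA_summ {c : ℕ → ℝ} (hc : ∀ m, 0 ≤ c m)
    (hb : ∃ C : ℝ, ∀ X : ℝ, 1 ≤ X → ∑ n ∈ Finset.Icc 1 ⌊X⌋₊, c n ≤ C * X ^ 2)
    {σ : ℝ} (hσ : 1 < σ) : Summable fun k : ℕ => bA c k * (k : ℝ) ^ (-σ) := by
  have hφ : ∀ k : ℕ, 0 ≤ (k : ℝ) ^ (-σ) := fun k => by positivity
  have h1 := rearr hc hφ
  have h2 : ∑' n : ℕ, ∑' m : ℕ, ENNReal.ofReal (c m / m * (((n + 1) ^ 2 * m : ℕ) : ℝ) ^ (-σ)) =
      (∑' n : ℕ, ENNReal.ofReal (((n : ℝ) + 1) ^ (-(2 * σ)))) *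
        ∑' m : ℕ, ENNReal.ofReal (c m / m * (m : ℝ) ^ (-σ)) := by
    rw [← ENNReal.tsum_mul_right]
    refine tsum_congr fun n => ?_
    rw [← ENNReal.tsum_mul_left]
    refine tsum_congr fun m => ?_
    rw [← ENNReal.ofReal_mul (by positivity)]
    congr 1
    push_cast
    rw [Real.mul_rpow (by positivity) (by positivity), ← Real.rpow_natCast, ← Real.rpow_mul
      (by positivity)]
    push_cast
    ring_nf
  have h3 : ∑' n : ℕ, ENNReal.ofReal (((n : ℝ) + 1) ^ (-(2 * σ))) ≠ ⊤ := by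
    have h4 : Summable fun n : ℕ => ((n : ℝ) + 1) ^ (-(2 * σ)) := by
      have := (summable_nat_add_iff 1).mpr (Real.summable_nat_rpow (p := -(2 * σ))|>.mpr (by linarith))
      refine this.congr fun n => ?_
      push_cast; rfl
    exact h4.tsum_ofReal_ne_top
  have h5 : ∑' m : ℕ, ENNReal.ofReal (c m / m * (m : ℝ) ^ (-σ)) ≠ ⊤ :=
    (c_summ hc hb hσ).tsum_ofReal_ne_top
  have h6 : ∑' k : ℕ, ENNReal.ofReal (bA c k * (k : ℝ) ^ (-σ)) ≠ ⊤ := by
    rw [← h1, h2]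
    exact ENNReal.mul_ne_top h3 h5
  have h7 := ENNReal.summable_toReal h6
  refine h7.congr fun k => ?_
  rw [ENNReal.toReal_ofReal (mul_nonneg (bA_nonneg hc k) (hφ k))]

theorem bB_summ {B : ℕ → ℕ → ℝ} (hB : ∀ n m, 0 ≤ B n m) {c : ℕ → ℝ} (h : ∀ n m, B n m ≤ c m)
    (hb : ∃ C : ℝ, ∀ X : ℝ, 1 ≤ X → ∑ n ∈ Finset.Icc 1 ⌊X⌋₊, c n ≤ C * X ^ 2)
    {σ : ℝ} (hσ : 1 < σ) : Summable fun k : ℕ => bB B k * (k : ℝ) ^ (-σ) := by
  have hc : ∀ m, 0 ≤ c m := fun m => (hB 0 m).trans (h 0 m)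
  refine Summable.of_nonneg_of_le (fun k => mul_nonneg (bB_nonneg hB k) (by positivity))
    (fun k => ?_) (bA_summ hc hb hσ)
  exact mul_le_mul_of_nonneg_right (bB_le h k) (by positivity)

end P004N.T3
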