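import Mathlib

/-!
# P004N: Parseval for absolutely convergent exponential sums with complex coefficients
-/

open Complex Filter Topology MeasureTheory Set
open scoped Real

namespace P004N.T3

theorem int_exp (n : ℤ) :
    ∫ x in (0 : ℝ)..1, cexp (2 * π * I * n * x) = if n = 0 then 1 else 0 := by
  by_cases hn : n = 0
  · simp [hn]
  · rw [if_neg hn]
    have hc : (2 * π * I * n : ℂ) ≠ 0 :=
      mul_ne_zero two_pi_I_ne_zero (Int.cast_ne_zero.2 hn)
    rw [integral_exp_mul_complex hc]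
    have h1 : cexp (2 * π * I * n * ((1 : ℝ) : ℂ)) = 1 := by
      rw [show 2 * (π : ℂ) * I * n * ((1 : ℝ) : ℂ) = n * (2 * π * I) by push_cast; ring]
      exact exp_int_mul_two_pi_mul_I n
    rw [h1]
    simp

/-- **Parseval** for an absolutely convergent exponential sum -/
theorem pars_gen {c : ℕ → ℂ} (hc : Summable fun n => ‖c n‖) :
    Summable (fun n => ‖c n‖ ^ 2) ∧
      ∫ x in (0 : ℝ)..1, ‖∑' n : ℕ, c n * cexp (2 * π * I * n * x)‖ ^ 2 =
        ∑' n, ‖c n‖ ^ 2 := by
  have hsq : Summable (fun n => ‖c n‖ ^ 2) := by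
    have h1 : Summable fun p : ℕ × ℕ => ‖c p.1‖ * ‖c p.2‖ := hc.mul_of_nonneg hc
      (fun _ => norm_nonneg _) (fun _ => norm_nonneg _)
    have h2 := h1.comp_injective (i := fun n : ℕ => (n, n)) (fun a b h => (Prod.mk.inj h).1)
    refine h2.congr fun n => ?_
    simp only [Function.comp_apply]
    rw [pow_two]
  refine ⟨hsq, ?_⟩
  -- the double series
  set G : ℕ × ℕ → ℝ → ℂ := fun p x =>
    (c p.1 * (starRingEnd ℂ) (c p.2)) * cexp (2 * π * I * ((p.1 : ℤ) - (p.2 : ℤ) : ℤ) * x) with hG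
  have hnorm : ∀ (m : ℤ) (x : ℝ), ‖cexp (2 * π * I * m * x)‖ = 1 := by
    intro m x
    rw [norm_exp]
    simp
  have hGn : ∀ p x, ‖G p x‖ = ‖c p.1‖ * ‖c p.2‖ := by
    intro p x
    simp only [hG]
    rw [norm_mul, hnorm, mul_one, norm_mul, norm_conj]
  have hs1 : ∀ x : ℝ, Summable fun n : ℕ => ‖c n * cexp (2 * π * I * n * x)‖ := by
    intro x
    refine hc.congr fun n => ?_
    have h := hnorm n x
    push_cast at h
    rw [norm_mul, h, mul_one]
  have hpt : ∀ x : ℝ, ((‖∑' n : ℕ, c n * cexp (2 * π * I * n * x)‖ ^ 2 : ℝ) : ℂ) =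
      ∑' p, G p x := by
    intro x
    have h1 : ∑' n : ℕ, (starRingEnd ℂ) (c n) * cexp (-(2 * π * I * n * x)) =
        (starRingEnd ℂ) (∑' n : ℕ, c n * cexp (2 * π * I * n * x)) := by
      rw [conj_tsum]
      refine tsum_congr fun n => ?_
      rw [map_mul, ← exp_conj]
      congr 2
      simp only [map_mul, conj_ofReal, conj_I, map_natCast, map_ofNat]
      ring
    have hs2 : Summable fun n : ℕ => ‖(starRingEnd ℂ) (c n) * cexp (-(2 * π * I * n * x))‖ := by
      refine hc.congr fun n => ?_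
      have h := hnorm (-n) x
      push_cast at h
      rw [show 2 * (π : ℂ) * I * -(n : ℂ) * x = -(2 * π * I * n * x) by ring] at h
      rw [norm_mul, h, mul_one, norm_conj]
    rw [← normSq_eq_norm_sq, ← mul_conj, ← h1, tsum_mul_tsum_of_summable_norm (hs1 x) hs2]
    refine tsum_congr fun p => ?_
    simp only [hG]
    push_cast
    rw [show 2 * (π : ℂ) * I * ((p.1 : ℂ) - p.2) * x =
      2 * π * I * p.1 * x + -(2 * π * I * p.2 * x) by ring, exp_add]
    ring
  have hint : ∀ p, ∫ x in (0 : ℝ)..1, G p x = if p.1 = p.2 then ((‖c p.1‖ ^ 2 : ℝ) : ℂ) else 0 := by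
    intro p
    simp only [hG]
    rw [intervalIntegral.integral_const_mul, int_exp]
    by_cases h : p.1 = p.2
    · rw [if_pos h, if_pos (by rw [h, sub_self]), mul_one, h, mul_conj, normSq_eq_norm_sq]
    · rw [if_neg h, if_neg (by omega), mul_zero]
  have h1 : Summable fun p : ℕ × ℕ => ‖c p.1‖ * ‖c p.2‖ := hc.mul_of_nonneg hc
    (fun _ => norm_nonneg _) (fun _ => norm_nonneg _)
  have hsum : HasSum (fun p => ∫ x in (0 : ℝ)..1, G p x) (∫ x in (0 : ℝ)..1, ∑' p, G p x) := by
    simp only [intervalIntegral.integral_of_le (zero_le_one' ℝ)]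
    refine hasSum_integral_of_summable_integral_norm (fun p => ?_) ?_
    · have hcont : Continuous (G p) := by
        simp only [hG]
        fun_prop
      exact (hcont.integrableOn_Icc).mono_set Ioc_subset_Icc_self
    · simp only [hGn]
      refine h1.congr fun p => ?_
      simp
  have htot : ∫ x in (0 : ℝ)..1, ∑' p, G p x = ((∑' n, ‖c n‖ ^ 2 : ℝ) : ℂ) := by
    rw [← hsum.tsum_eq]
    simp only [hint]
    have hinj : Function.Injective (fun n : ℕ => (n, n)) := fun a b h => (Prod.mk.inj h).1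
    rw [← hinj.tsum_eq]
    · simp only [if_true]
      rw [ofReal_tsum]
    · intro p hp
      rw [Function.mem_support] at hp
      by_cases h : p.1 = p.2
      · exact ⟨p.1, Prod.ext rfl h⟩
      · exact absurd (if_neg h) hp
  have hfin : ((∫ x in (0 : ℝ)..1, ‖∑' n : ℕ, c n * cexp (2 * π * I * n * x)‖ ^ 2 : ℝ) : ℂ) =
      ((∑' n, ‖c n‖ ^ 2 : ℝ) : ℂ) := by
    rw [← htot, ← intervalIntegral.integral_ofReal]
    refine intervalIntegral.integral_congr fun x _ => ?_
    exact hpt x
  exact_mod_cast hfin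

end P004N.T3
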