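import Vale.Agent.P004N.Defs
import Vale.Agent.P004N.H974.Pars
import Vale.Agent.P004N.H974.Mean

/-!
# P004N: the density `|f|² y²` of a cusp form of weight two on `Γ₀(N)`
-/

open UpperHalfPlane hiding I
open Complex MeasureTheory Set Filter CongruenceSubgroup
open scoped MatrixGroups Modular ModularForm Manifold ENNReal Real Topology

namespace P004N.T3

open Vale.Agent.P004.H26.H86 (lint_H meas_ofC)

/-- the invariant density -/
noncomputable def G (f : ℍ → ℂ) (z : ℍ) : ℝ := ‖f z‖ ^ 2 * z.im ^ 2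

theorem G_nonneg (f : ℍ → ℂ) (z : ℍ) : 0 ≤ G f z := by unfold G; positivity

theorem G_eq_petersson (f : ℍ → ℂ) (z : ℍ) : G f z = ‖petersson 2 f f z‖ := by
  unfold G petersson
  rw [norm_mul, norm_mul, Complex.norm_conj]
  have h : ‖((z.im : ℂ)) ^ (2 : ℤ)‖ = z.im ^ 2 := by
    rw [norm_zpow, Complex.norm_real, Real.norm_of_nonneg z.im_pos.le]
    norm_cast
  rw [h]
  ring

theorem G_smul (f : ℍ → ℂ) (g : SL(2, ℤ)) (z : ℍ) : G f (g • z) = G (f ∣[(2 : ℤ)] g) z := by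
  rw [G_eq_petersson, G_eq_petersson, petersson_slash_SL]

variable {N : ℕ} {f : ℍ → ℂ}

theorem conj_mem (N : ℕ) (g : SL(2, ℤ)) : g * ModularGroup.T ^ (N : ℤ) * g⁻¹ ∈ Gamma0 N := by
  rw [Gamma0_mem]
  have h : ((g * ModularGroup.T ^ (N : ℤ) * g⁻¹ : SL(2, ℤ)) 1 0 : ℤ) = -(N * (g 1 0) ^ 2) := by
    simp only [Matrix.SpecialLinearGroup.coe_mul, ModularGroup.coe_T_zpow,
      Matrix.SpecialLinearGroup.coe_inv, Matrix.adjugate_fin_two, Matrix.mul_apply,
      Fin.sum_univ_two]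
    simp
    ring
  rw [h]
  push_cast
  simp

theorem slash_TN (hf : S2 N f) (g : SL(2, ℤ)) :
    (f ∣[(2 : ℤ)] g) ∣[(2 : ℤ)] (ModularGroup.T ^ (N : ℤ)) = f ∣[(2 : ℤ)] g := by
  have h := hf.slash _ (conj_mem N g)
  calc (f ∣[(2 : ℤ)] g) ∣[(2 : ℤ)] (ModularGroup.T ^ (N : ℤ))
      = f ∣[(2 : ℤ)] (g * ModularGroup.T ^ (N : ℤ)) := by rw [SlashAction.slash_mul]
    _ = f ∣[(2 : ℤ)] ((g * ModularGroup.T ^ (N : ℤ) * g⁻¹) * g) := by group
    _ = (f ∣[(2 : ℤ)] (g * ModularGroup.T ^ (N : ℤ) * g⁻¹)) ∣[(2 : ℤ)] g := by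
        rw [SlashAction.slash_mul]
    _ = f ∣[(2 : ℤ)] g := by rw [h]

theorem slash_T_apply (h : ℍ → ℂ) (k : ℤ) (z : ℍ) :
    (h ∣[(2 : ℤ)] (ModularGroup.T ^ k)) z = h ((k : ℝ) +ᵥ z) := by
  rw [ModularForm.SL_slash_apply, UpperHalfPlane.modular_T_zpow_smul, ModularGroup.denom_apply,
    ModularGroup.coe_T_zpow]
  simp

theorem vadd_N (hf : S2 N f) (g : SL(2, ℤ)) (z : ℍ) :
    (f ∣[(2 : ℤ)] g) ((N : ℝ) +ᵥ z) = (f ∣[(2 : ℤ)] g) z := by
  have h1 := slash_T_apply (f ∣[(2 : ℤ)] g) N z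
  rw [slash_TN hf g] at h1
  rw [h1]
  push_cast
  rfl

theorem per (hf : S2 N f) (g : SL(2, ℤ)) :
    Function.Periodic ((f ∣[(2 : ℤ)] g) ∘ ofComplex) ((N : ℝ) : ℂ) := by
  intro w
  by_cases hw : 0 < w.im
  · have h2 : 0 < (w + ((N : ℝ) : ℂ)).im := by simpa using hw
    simp only [Function.comp_apply, ofComplex_apply_of_im_pos h2, ofComplex_apply_of_im_pos hw]
    rw [← vadd_N hf g ⟨w, hw⟩]
    have e : (⟨w + ((N : ℝ) : ℂ), h2⟩ : ℍ) = (N : ℝ) +ᵥ (⟨w, hw⟩ : ℍ) := by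
      apply UpperHalfPlane.ext
      rw [coe_vadd]
      show w + ((N : ℝ) : ℂ) = ((N : ℝ) : ℂ) + w
      ring
    rw [e]
  · have h2 : (w + ((N : ℝ) : ℂ)).im ≤ 0 := by
      have : (w + ((N : ℝ) : ℂ)).im = w.im := by simp
      rw [this]; exact not_lt.1 hw
    simp only [Function.comp_apply, ofComplex_apply_of_im_nonpos h2,
      ofComplex_apply_of_im_nonpos (not_lt.1 hw)]

theorem mdiff_slash (hf : S2 N f) (g : SL(2, ℤ)) : MDiff (f ∣[(2 : ℤ)] g) :=
  hf.holo.slash 2 (g : GL (Fin 2) ℝ)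

theorem bdd_slash (hf : S2 N f) (g : SL(2, ℤ)) : IsBoundedAtImInfty (f ∣[(2 : ℤ)] g) :=
  (hf.zero g).isBoundedAtImInfty

/-- the coefficients of `f | g` in `q^(1/N)` -/
noncomputable def al (N : ℕ) (f : ℍ → ℂ) (g : SL(2, ℤ)) (m : ℕ) : ℂ :=
  (qExpansion (N : ℝ) (f ∣[(2 : ℤ)] g)).coeff m

theorem hasSum_al (hN : 0 < N) (hf : S2 N f) (g : SL(2, ℤ)) (z : ℍ) :
    HasSum (fun m : ℕ => al N f g m * cexp (2 * π * I * m * z / N)) ((f ∣[(2 : ℤ)] g) z) := by
  have hN' : (0 : ℝ) < N := by exact_mod_cast hN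
  have h := hasSum_qExpansion hN' (per hf g) (mdiff_slash hf g) (bdd_slash hf g) z
  convert! h using 2 with m
  rw [smul_eq_mul, Function.Periodic.qParam, ← Complex.exp_nat_mul, al]
  congr 2
  push_cast
  ring

theorem al_zero (hN : 0 < N) (hf : S2 N f) (g : SL(2, ℤ)) : al N f g 0 = 0 := by
  have hN' : (0 : ℝ) < N := by exact_mod_cast hN
  unfold al
  rw [qExpansion_coeff_zero hN' (analyticAt_cuspFunction_zero hN' (per hf g) (mdiff_slash hf g)
    (bdd_slash hf g)) (per hf g)]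
  exact (hf.zero g).valueAtInfty_eq_zero

theorem cont_slash (hf : S2 N f) (g : SL(2, ℤ)) : Continuous (f ∣[(2 : ℤ)] g) :=
  (mdiff_slash hf g).continuous

theorem G_cont {h : ℍ → ℂ} (hh : Continuous h) : Continuous (G h) :=
  (hh.norm.pow 2).mul (UpperHalfPlane.continuous_im.pow 2)

theorem slash_one' (f : ℍ → ℂ) : f ∣[(2 : ℤ)] (1 : SL(2, ℤ)) = f := by
  rw [SlashAction.slash_one]

theorem f_cont (hf : S2 N f) : Continuous f := hf.holo.continuous

/-- `|f|g|² y²` -/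
theorem Gg_eq (f : ℍ → ℂ) (g : SL(2, ℤ)) : (fun z => G f (g • z)) = G (f ∣[(2 : ℤ)] g) :=
  funext fun z => G_smul f g z

theorem G_inv (hf : S2 N f) {γ : SL(2, ℤ)} (hγ : γ ∈ Gamma0 N) (z : ℍ) : G f (γ • z) = G f z := by
  rw [G_smul, hf.slash γ hγ]

theorem pt {y : ℝ} (hy : 0 < y) (x : ℝ) : ((ofComplex (⟨x, y⟩ : ℂ) : ℍ) : ℂ) = x + y * I ∧
    (ofComplex (⟨x, y⟩ : ℂ)).im = y := by
  have h0 : (ofComplex (⟨x, y⟩ : ℂ)) = ⟨⟨x, y⟩, hy⟩ := ofComplex_apply_of_im_pos (z := (⟨x, y⟩ : ℂ)) hy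
  rw [h0]
  refine ⟨?_, rfl⟩
  show (⟨x, y⟩ : ℂ) = x + y * I
  apply Complex.ext <;> simp

theorem exp_split (hN : 0 < N) (hf : S2 N f) (g : SL(2, ℤ)) {y : ℝ} (hy : 0 < y) (x : ℝ) :
    HasSum (fun m : ℕ => (al N f g m * (Real.exp (-(2 * π * m * y / N)) : ℝ)) *
      cexp (2 * π * I * m * x)) ((f ∣[(2 : ℤ)] g) (ofComplex (⟨N * x, y⟩ : ℂ))) := by
  have hN' : (N : ℂ) ≠ 0 := by exact_mod_cast hN.ne'
  have h := hasSum_al hN hf g (ofComplex (⟨N * x, y⟩ : ℂ))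
  convert! h using 2 with m
  rw [(pt hy _).1, mul_assoc, Complex.ofReal_exp, ← Complex.exp_add]
  congr 2
  push_cast
  field_simp
  linear_combination (-(m : ℂ) * y) * I_sq

theorem summ_al (hN : 0 < N) (hf : S2 N f) (g : SL(2, ℤ)) {y : ℝ} (hy : 0 < y) :
    Summable fun m : ℕ => ‖al N f g m * (Real.exp (-(2 * π * m * y / N)) : ℝ)‖ := by
  refine (exp_split hN hf g hy 0).summable.norm.congr fun m => ?_
  simp

/-- **Parseval** for `f | g` -/
theorem mean (hN : 0 < N) (hf : S2 N f) (g : SL(2, ℤ)) :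
    MeanN N (fun z => G f (g • z)) (fun m => ‖al N f g m‖ ^ 2) := by
  intro y hy
  have hN' : (0 : ℝ) < N := by exact_mod_cast hN
  set h := f ∣[(2 : ℤ)] g with hh
  have hcont : Continuous fun x : ℝ => G h (ofComplex (⟨x, y⟩ : ℂ)) := by
    have h1 : Continuous fun x : ℝ => (ofComplex (⟨x, y⟩ : ℂ) : ℍ) := by
      have h2 : (fun x : ℝ => (ofComplex (⟨x, y⟩ : ℂ) : ℍ)) = fun x : ℝ => ⟨⟨x, y⟩, hy⟩ := by
        funext x
        exact ofComplex_apply_of_im_pos (z := (⟨x, y⟩ : ℂ)) hy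
      rw [h2]
      refine Continuous.upperHalfPlaneMk ?_ _
      have : (fun x : ℝ => (⟨x, y⟩ : ℂ)) = fun x : ℝ => (x : ℂ) + (y : ℂ) * Complex.I := by
        funext x; apply Complex.ext <;> simp
      rw [this]; fun_prop
    exact (G_cont (cont_slash hf g)).comp h1
  have hp := pars_gen (summ_al hN hf g hy)
  have e1 : ∀ m : ℕ, ‖al N f g m * (Real.exp (-(2 * π * m * y / N)) : ℝ)‖ ^ 2 =
      ‖al N f g m‖ ^ 2 * Real.exp (-(4 * π * m * y / N)) := by
    intro m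
    rw [norm_mul, mul_pow, Complex.norm_real, Real.norm_of_nonneg (Real.exp_pos _).le,
      ← Real.exp_nat_mul]
    congr 2
    push_cast
    ring
  simp only [e1] at hp
  obtain ⟨hp1, hp2⟩ := hp
  have e2 : ∫ x in (0 : ℝ)..N, G h (ofComplex (⟨x, y⟩ : ℂ)) =
      N * (y ^ 2 * ∑' m : ℕ, ‖al N f g m‖ ^ 2 * Real.exp (-(4 * π * m * y / N))) := by
    have h3 := intervalIntegral.smul_integral_comp_mul_left (a := (0 : ℝ)) (b := 1)
      (fun x : ℝ => G h (ofComplex (⟨x, y⟩ : ℂ))) (N : ℝ)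
    rw [mul_zero, mul_one, smul_eq_mul] at h3
    have h4 : ∫ x in (0 : ℝ)..1, G h (ofComplex (⟨N * x, y⟩ : ℂ)) =
        ∫ x in (0 : ℝ)..1, y ^ 2 * ‖∑' m : ℕ, (al N f g m * (Real.exp (-(2 * π * m * y / N)) : ℝ)) *
          cexp (2 * π * I * m * x)‖ ^ 2 := by
      refine intervalIntegral.integral_congr fun x _ => ?_
      simp only [G]
      rw [(pt hy _).2, (exp_split hN hf g hy x).tsum_eq, mul_comm]
    rw [← h3, ← hp2, h4, intervalIntegral.integral_const_mul]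
  have e3 : ∀ z : ℍ, G f (g • z) = G h z := fun z => G_smul f g z
  simp_rw [e3]
  have hI : IntegrableOn (fun x : ℝ => G h (ofComplex (⟨x, y⟩ : ℂ))) (Ico 0 N) :=
    (hcont.integrableOn_Icc).mono_set Ico_subset_Icc_self
  rw [← ofReal_integral_eq_lintegral_ofReal hI (Filter.Eventually.of_forall fun x => G_nonneg _ _),
    integral_Ico_eq_integral_Ioc, ← intervalIntegral.integral_of_le hN'.le, e2,
    ENNReal.ofReal_mul hN'.le, ENNReal.ofReal_natCast, ← tsum_mul_left,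
    ENNReal.ofReal_tsum_of_nonneg (fun m => by positivity) (hp1.mul_left _)]

/-! ### bounds -/

theorem decay (hN : 0 < N) (hf : S2 N f) (g : SL(2, ℤ)) :
    (fun z => G f (g • z)) =O[atImInfty] fun z => (z.im) ^ (0 : ℝ) := by
  have hN' : (0 : ℝ) < N := by exact_mod_cast hN
  have h := (hf.zero g).exp_decay_atImInfty hN' (per hf g) (mdiff_slash hf g) (bdd_slash hf g)
  rw [Gg_eq]
  obtain ⟨C, hC⟩ := h.bound
  refine Asymptotics.IsBigO.of_bound (C ^ 2 * N ^ 2) ?_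
  filter_upwards [hC] with z hz
  rw [Real.rpow_zero, norm_one, mul_one, Real.norm_of_nonneg (G_nonneg _ _), G, ← mul_pow, ← mul_pow]
  rw [Real.norm_of_nonneg (Real.exp_pos _).le] at hz
  have hy := z.im_pos
  have h1 : z.im * Real.exp (-2 * π * z.im / N) ≤ N := by
    have h2 := Real.add_one_le_exp (z.im / N)
    have h3 : z.im ≤ N * Real.exp (z.im / N) := by
      have : z.im = N * (z.im / N) := by field_simp
      calc z.im = N * (z.im / N) := this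
        _ ≤ N * Real.exp (z.im / N) := by gcongr; linarith
    calc z.im * Real.exp (-2 * π * z.im / N)
        ≤ (N * Real.exp (z.im / N)) * Real.exp (-2 * π * z.im / N) := by gcongr
      _ = N * Real.exp (-((2 * π - 1) * (z.im / N))) := by
          rw [mul_assoc, ← Real.exp_add]
          congr 2
          ring
      _ ≤ N * 1 := by
          gcongr
          apply Real.exp_le_one_iff.2
          have := Real.pi_gt_three
          have h4 : 0 ≤ (2 * π - 1) * (z.im / N) := mul_nonneg (by linarith) (by positivity)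
          linarith
      _ = N := mul_one _
  have hC0 : 0 ≤ C * Real.exp (-2 * π * z.im / N) := (norm_nonneg _).trans hz
  apply pow_le_pow_left₀ (by positivity)
  calc ‖(f ∣[(2 : ℤ)] g) z‖ * z.im ≤ (C * Real.exp (-2 * π * z.im / N)) * z.im := by gcongr
    _ = C * (z.im * Real.exp (-2 * π * z.im / N)) := by ring
    _ ≤ C * N := by
        have hC1 : 0 ≤ C := by
          by_contra h0
          push Not at h0
          have := mul_neg_of_neg_of_pos h0 (Real.exp_pos (-2 * π * z.im / N))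
          linarith
        gcongr

theorem G_bdd (hN : 0 < N) (hf : S2 N f) : ∃ C : ℝ, 0 < C ∧ ∀ z : ℍ, G f z ≤ C := by
  have : NeZero N := ⟨hN.ne'⟩
  obtain ⟨C, hC⟩ := ModularGroup.exists_bound_of_subgroup_invariant_of_isBigO
    (G_cont (f_cont hf)) le_rfl (decay hN hf) (Γ := Gamma0 N) (fun γ hγ z => G_inv hf hγ z)
  refine ⟨max C 1, lt_of_lt_of_le one_pos (le_max_right _ _), fun z => ?_⟩
  have h := hC z
  rw [Real.rpow_zero, mul_one, Real.norm_of_nonneg (G_nonneg _ _)] at h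
  exact h.trans (le_max_left _ _)

/-- sums of squares from the mean and a bound -/
theorem sq_sum_of {N : ℕ} (hN : 0 < N) {H : ℍ → ℝ} {β : ℕ → ℝ} (hβ : ∀ m, 0 ≤ β m)
    (hM : MeanN N H β) {C : ℝ} (hC : 0 ≤ C) (hH : ∀ z, H z ≤ C) :
    ∀ X : ℝ, 1 ≤ X → ∑ n ∈ Finset.Icc 1 ⌊X⌋₊, β n ≤ Real.exp (4 * π) * C * X ^ 2 := by
  intro X hX
  have hX0 : 0 < X := by linarith
  have hN' : (0 : ℝ) < N := by exact_mod_cast hN
  have hN1 : (1 : ℝ) ≤ N := by exact_mod_cast hN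
  have h := hM (1 / X) (by positivity)
  have h1 : ∫⁻ x in Ico (0 : ℝ) N, ENNReal.ofReal (H (ofComplex (⟨x, 1 / X⟩ : ℂ))) ≤
      N * ENNReal.ofReal C := by
    calc _ ≤ ∫⁻ x in Ico (0 : ℝ) N, ENNReal.ofReal C :=
          lintegral_mono fun x => ENNReal.ofReal_le_ofReal (hH _)
      _ = _ := by
          rw [setLIntegral_const, Real.volume_Ico, sub_zero, ENNReal.ofReal_natCast, mul_comm]
  rw [h] at h1
  have h2 : ∑' m : ℕ, ENNReal.ofReal ((1 / X) ^ 2 * (β m * Real.exp (-(4 * π * m * (1 / X) / N))))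
      ≤ ENNReal.ofReal C :=
    (ENNReal.mul_le_mul_iff_right (by exact_mod_cast hN.ne') (ENNReal.natCast_ne_top N)).1 h1
  have h3 := (ENNReal.sum_le_tsum (Finset.Icc 1 ⌊X⌋₊)).trans h2
  rw [← ENNReal.ofReal_sum_of_nonneg (fun m _ => by have := hβ m; positivity)] at h3
  have h4 := (ENNReal.ofReal_le_ofReal_iff hC).1 h3
  have h5 : ∑ n ∈ Finset.Icc 1 ⌊X⌋₊, (1 / X) ^ 2 * (β n * Real.exp (-(4 * π))) ≤ C := by
    refine le_trans (Finset.sum_le_sum fun n hn => ?_) h4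
    have hn1 := (Finset.mem_Icc.1 hn).2
    have hnX : (n : ℝ) ≤ X := (Nat.le_floor_iff hX0.le).1 hn1
    have := hβ n
    gcongr
    have h6 : (n : ℝ) * (1 / X) ≤ 1 := by
      rw [mul_one_div, div_le_one hX0]; exact hnX
    rw [div_le_iff₀ hN']
    have hpi := Real.pi_pos
    nlinarith
  rw [← Finset.mul_sum, ← Finset.sum_mul] at h5
  have h7 : Real.exp (4 * π) * Real.exp (-(4 * π)) = 1 := by
    rw [← Real.exp_add, add_neg_cancel, Real.exp_zero]
  calc ∑ n ∈ Finset.Icc 1 ⌊X⌋₊, β n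
      = (Real.exp (4 * π) * X ^ 2) *
          ((1 / X) ^ 2 * ((∑ n ∈ Finset.Icc 1 ⌊X⌋₊, β n) * Real.exp (-(4 * π)))) := by
        have : X ^ 2 * (1 / X) ^ 2 = 1 := by field_simp
        calc _ = (Real.exp (4 * π) * Real.exp (-(4 * π))) * (X ^ 2 * (1 / X) ^ 2) *
              (∑ n ∈ Finset.Icc 1 ⌊X⌋₊, β n) := by rw [h7, this]; ring
          _ = _ := by ring
    _ ≤ (Real.exp (4 * π) * X ^ 2) * C := by gcongr
    _ = _ := by ring

end P004N.T3
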