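import Vale.Agent.P004N.H974.Coset
import Vale.Agent.P004N.H974.Iface

/-!
# P004N: the symmetric functional equations
-/

open UpperHalfPlane hiding I
open Complex MeasureTheory Set Filter CongruenceSubgroup
open scoped MatrixGroups Modular ModularForm Manifold ENNReal Real Topology

namespace P004N.T3

open Vale.Agent.P004.H26.H86
open Vale.Agent.P004.H26.H392 (W W_nonneg W_le)

/-! ### the fundamental domain has finite volume -/

theorem fd_finite : (volume : Measure ℍ) (𝒟 : Set ℍ) < ⊤ := by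
  have hD : MeasurableSet (𝒟 : Set ℍ) := ModularGroup.isClosed_fd.measurableSet
  have h1 : (volume : Measure ℍ) (𝒟 : Set ℍ) = ∫⁻ z : ℍ, (𝒟 : Set ℍ).indicator (fun _ => 1) z := by
    rw [lintegral_indicator hD]; simp
  rw [h1, lint_H (measurable_const.indicator hD)]
  have h2 : ∀ y ∈ Ioi (0 : ℝ), ∫⁻ x : ℝ, (𝒟 : Set ℍ).indicator (fun _ => (1 : ℝ≥0∞))
      (ofComplex (⟨x, y⟩ : ℂ)) * ENNReal.ofReal (1 / y ^ 2) ≤
      (Ioi (1 / 2 : ℝ)).indicator (fun y => ENNReal.ofReal (1 / y ^ 2)) y := by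
    intro y hy
    have hy' : (0 : ℝ) < y := hy
    have him : ∀ x : ℝ, (ofComplex (⟨x, y⟩ : ℂ)).im = y := fun x => by
      rw [ofComplex_apply_of_im_pos (z := (⟨x, y⟩ : ℂ)) hy']; rfl
    have hre : ∀ x : ℝ, (ofComplex (⟨x, y⟩ : ℂ)).re = x := fun x => by
      rw [ofComplex_apply_of_im_pos (z := (⟨x, y⟩ : ℂ)) hy']; rfl
    by_cases h : (1 / 2 : ℝ) < y
    · rw [indicator_of_mem (by exact h)]
      calc ∫⁻ x : ℝ, (𝒟 : Set ℍ).indicator (fun _ => (1 : ℝ≥0∞))
            (ofComplex (⟨x, y⟩ : ℂ)) * ENNReal.ofReal (1 / y ^ 2)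
          ≤ ∫⁻ x : ℝ, (Icc (-(1 / 2) : ℝ) (1 / 2)).indicator
              (fun _ => ENNReal.ofReal (1 / y ^ 2)) x := by
            refine lintegral_mono fun x => ?_
            by_cases hx : (ofComplex (⟨x, y⟩ : ℂ)) ∈ (𝒟 : Set ℍ)
            · have hx2 : |x| ≤ 1 / 2 := by
                have := hx.2; rwa [hre] at this
              rw [indicator_of_mem hx, indicator_of_mem (by exact abs_le.mp hx2), one_mul]
            · rw [indicator_of_notMem hx, zero_mul]; exact zero_le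
        _ = ENNReal.ofReal (1 / y ^ 2) := by
            rw [lintegral_indicator measurableSet_Icc, setLIntegral_const, Real.volume_Icc]
            norm_num
    · rw [indicator_of_notMem (by exact h)]
      refine le_of_eq ?_
      rw [lintegral_eq_zero_iff']
      · refine Filter.Eventually.of_forall fun x => ?_
        show (𝒟 : Set ℍ).indicator (fun _ => (1 : ℝ≥0∞)) (ofComplex (⟨x, y⟩ : ℂ)) *
          ENNReal.ofReal (1 / y ^ 2) = 0
        rw [indicator_of_notMem, zero_mul]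
        intro hx
        have := ModularGroup.three_le_four_mul_im_sq_of_mem_fd hx
        rw [him] at this
        nlinarith
      · have hm : Measurable fun x : ℝ => (ofComplex (⟨x, y⟩ : ℂ)) := by
          refine meas_ofC.comp ?_
          have : (fun x : ℝ => (⟨x, y⟩ : ℂ)) = fun x : ℝ => (x : ℂ) + (y : ℂ) * Complex.I := by
            funext x; apply Complex.ext <;> simp
          rw [this]; fun_prop
        exact (((measurable_const.indicator hD).comp hm).mul measurable_const).aemeasurable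
  refine lt_of_le_of_lt (setLIntegral_mono' measurableSet_Ioi h2) ?_
  refine lt_of_le_of_lt (setLIntegral_le_lintegral _ _) ?_
  rw [lintegral_indicator measurableSet_Ioi]
  have h3 : IntegrableOn (fun y : ℝ => 1 / y ^ 2) (Ioi (1 / 2)) := by
    have := integrableOn_Ioi_rpow_of_lt (a := -2) (by norm_num) (c := 1 / 2) (by norm_num)
    refine this.congr_fun (fun y hy => ?_) measurableSet_Ioi
    have hy' : (0 : ℝ) < y := lt_trans (by norm_num) hy
    show y ^ (-2 : ℝ) = 1 / y ^ 2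
    rw [Real.rpow_neg hy'.le, one_div]
    norm_num
  have h4 := h3.2
  rw [hasFiniteIntegral_iff_ofReal] at h4
  · exact h4
  · exact Filter.Eventually.of_forall fun y => by positivity

theorem open_pos {U : Set ℍ} (hU : IsOpen U) (hne : U.Nonempty) :
    0 < (volume : Measure ℍ) U := by
  have ho : IsOpen (UpperHalfPlane.coe '' U) := isOpenEmbedding_coe.isOpenMap _ hU
  rw [volume_eq_lintegral, setLIntegral_pos_iff (by fun_prop)]
  refine lt_of_lt_of_le (ho.measure_pos volume (hne.image _)) (measure_mono ?_)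
  rintro _ ⟨z, hz, rfl⟩
  refine ⟨?_, z, hz, rfl⟩
  rw [Function.mem_support]
  have := z.im_ne_zero
  simpa using this

variable {N : ℕ} {f : ℍ → ℂ}

theorem PN_ne_top [NeZero N] (hf : S2 N f) : PN N f ≠ ⊤ := by
  have hN : 0 < N := Nat.pos_of_ne_zero (NeZero.ne N)
  obtain ⟨C, hC, h⟩ := G_bdd hN hf
  have h1 : PN N f ≤ ∫⁻ _ in (𝒟 : Set ℍ),
      (Fintype.card (SL(2, ℤ) ⧸ Gamma0 N) : ℝ≥0∞) * ENNReal.ofReal C := by
    refine lintegral_mono fun z => ?_
    unfold HH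
    calc ∑ q : SL(2, ℤ) ⧸ Gamma0 N, ENNReal.ofReal (G f (q.out⁻¹ • z))
        ≤ ∑ q : SL(2, ℤ) ⧸ Gamma0 N, ENNReal.ofReal C :=
          Finset.sum_le_sum fun q _ => ENNReal.ofReal_le_ofReal (h _)
      _ = _ := by rw [Finset.sum_const, nsmul_eq_mul]; rfl
  rw [setLIntegral_const] at h1
  refine ne_top_of_le_ne_top (ENNReal.mul_ne_top (ENNReal.mul_ne_top ?_ ENNReal.ofReal_ne_top)
    fd_finite.ne) h1
  exact ENNReal.natCast_ne_top _

theorem PN_pos [NeZero N] (hf : S2 N f) (hne : ∃ z, f z ≠ 0) : 0 < PN N f := by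
  have := sl_countable
  rw [pos_iff_ne_zero]
  intro h0
  have h1 := unfold (HH_meas hf)
  simp_rw [HH_inv hf] at h1
  have h2 : ∫⁻ z in (𝒟 : Set ℍ), HH N f z = 0 := h0
  simp_rw [h2] at h1
  rw [tsum_zero] at h1
  have h3 : ∫⁻ z : ℍ, HH N f z = 0 := by
    rcases mul_eq_zero.1 h1.symm with h | h
    · norm_num at h
    · exact h
  rw [lintegral_eq_zero_iff (HH_meas hf)] at h3
  obtain ⟨z, hz⟩ := hne
  set q : SL(2, ℤ) ⧸ Gamma0 N := ((1 : SL(2, ℤ)) : SL(2, ℤ) ⧸ Gamma0 N) with hq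
  have hU : IsOpen {w : ℍ | 0 < G f (q.out⁻¹ • w)} := by
    have hc : Continuous fun w : ℍ => G f (q.out⁻¹ • w) := by
      rw [Gg_eq]; exact G_cont (cont_slash hf _)
    exact isOpen_lt continuous_const hc
  have hpos := open_pos hU ⟨q.out • z, by
    rw [mem_ofPred_eq, inv_smul_smul]
    unfold G
    have := z.im_pos
    have := norm_pos_iff.2 hz
    positivity⟩
  have hz0 : (volume : Measure ℍ) {w : ℍ | 0 < G f (q.out⁻¹ • w)} = 0 := by
    refine measure_mono_null ?_ (ae_iff.1 h3)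
    intro w hw
    rw [mem_ofPred_eq] at hw ⊢
    intro h4
    have h5 : ENNReal.ofReal (G f (q.out⁻¹ • w)) ≤ HH N f w := by
      unfold HH
      exact Finset.single_le_sum (f := fun q : SL(2, ℤ) ⧸ Gamma0 N =>
        ENNReal.ofReal (G f (q.out⁻¹ • w))) (fun _ _ => zero_le) (Finset.mem_univ q)
    rw [h4] at h5
    have h6 := ENNReal.ofReal_pos.2 hw
    exact absurd h5 (not_le.2 h6)
  exact hpos.ne' hz0

/-! ### bounds for the coefficients -/

/-- the majorant -/
noncomputable def B0 (N : ℕ) [NeZero N] (f : ℍ → ℂ) (m : ℕ) : ℝ :=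
  N * ∑ q : SL(2, ℤ) ⧸ Gamma0 N, ‖al N f q.out⁻¹ m‖ ^ 2

theorem BB_le [NeZero N] (M n m : ℕ) : BB N M f n m ≤ B0 N f m := by
  unfold BB B0
  refine mul_le_mul_of_nonneg_left (Finset.sum_le_sum fun q _ => ?_) (Nat.cast_nonneg _)
  split_ifs
  · exact le_rfl
  · positivity

theorem B0_sum [NeZero N] (hf : S2 N f) : ∃ C : ℝ, ∀ X : ℝ, 1 ≤ X →
    ∑ n ∈ Finset.Icc 1 ⌊X⌋₊, B0 N f n ≤ C * X ^ 2 := by
  have hN : 0 < N := Nat.pos_of_ne_zero (NeZero.ne N)
  obtain ⟨C, hC, h⟩ := G_bdd hN hf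
  refine ⟨N * ∑ q : SL(2, ℤ) ⧸ Gamma0 N, Real.exp (4 * π) * C, fun X hX => ?_⟩
  unfold B0
  rw [← Finset.mul_sum, Finset.sum_comm, mul_assoc, Finset.sum_mul]
  refine mul_le_mul_of_nonneg_left (Finset.sum_le_sum fun q _ => ?_) (Nat.cast_nonneg _)
  exact sq_sum_of hN (fun m => by positivity) (mean hN hf q.out⁻¹) hC.le (fun z => h _) X hX

theorem bM_summ [NeZero N] (hf : S2 N f) (M : ℕ) {σ : ℝ} (hσ : 1 < σ) :
    Summable fun k : ℕ => bB (BB N M f) k * (k : ℝ) ^ (-σ) :=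
  bB_summ (fun n m => BB_nonneg M n m) (c := B0 N f) (fun n m => BB_le M n m) (B0_sum hf) hσ

theorem W_summ {b : ℕ → ℝ} (hb : ∀ k, 0 ≤ b k) (hb0 : b 0 = 0)
    (hs : Summable fun k : ℕ => b k * (k : ℝ) ^ (-(2 : ℝ))) {t : ℝ} (ht : 0 < t) :
    Summable fun k : ℕ => b k * W (k * t) := by
  obtain ⟨C, hC, h⟩ := W_le 2
  refine Summable.of_nonneg_of_le (fun k => mul_nonneg (hb k) (W_nonneg _)) (fun k => ?_)
    (hs.mul_left (C * (t ^ 2)⁻¹))
  rcases Nat.eq_zero_or_pos k with rfl | hk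
  · rw [hb0]; simp
  have hk' : (0 : ℝ) < k := by exact_mod_cast hk
  have h1 := h (k * t) (by positivity)
  calc b k * W (k * t) ≤ b k * (C * ((k * t) ^ 2)⁻¹) :=
        mul_le_mul_of_nonneg_left h1 (hb k)
    _ = _ := by
        rw [Real.rpow_neg hk'.le, mul_pow, mul_inv]
        norm_cast
        ring

/-- **the symmetric functional equation** -/
theorem sym_fe [NeZero N] (hf : S2 N f) {M : ℕ} (hMN : M ∣ N) {u : ℝ} (hu : 0 < u) :
    (∑' k : ℕ, bB (BB N M f) k * W (k * (1 / u) / (M * N))) + (PN N f).toReal =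
    u * ((∑' k : ℕ, bB (BB N M f) k * W (k * u / (M * N))) + (PN N f).toReal) := by
  have hN : 0 < N := Nat.pos_of_ne_zero (NeZero.ne N)
  have hM : 0 < M := Nat.pos_of_dvd_of_pos hMN hN
  have hN' : (0 : ℝ) < N := by exact_mod_cast hN
  have hM' : (0 : ℝ) < M := by exact_mod_cast hM
  have hb : ∀ k, 0 ≤ bB (BB N M f) k := bB_nonneg fun n m => BB_nonneg M n m
  have hS : ∀ t : ℝ, 0 < t → Summable fun k : ℕ => bB (BB N M f) k * W (k * t / N) := by
    intro t ht
    have h := W_summ hb (bB_zero _) (bM_summ hf M (σ := 2) (by norm_num)) (t := t / N)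
      (by positivity)
    refine h.congr fun k => ?_
    rw [mul_div_assoc]
  have hA : ∀ t : ℝ, 0 < t → AA N M f t =
      ENNReal.ofReal ((∑' k : ℕ, bB (BB N M f) k * W (k * t / N)) + (PN N f).toReal) := by
    intro t ht
    rw [AA_unf hf hMN ht, ENNReal.ofReal_add (tsum_nonneg fun k => mul_nonneg (hb k) (W_nonneg _))
      ENNReal.toReal_nonneg, ENNReal.ofReal_toReal (PN_ne_top hf), add_comm,
      ENNReal.ofReal_tsum_of_nonneg (fun k => mul_nonneg (hb k) (W_nonneg _)) (hS t ht)]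
  have hu1 : 0 < u / M := by positivity
  have h1 := AA_fe (N := N) (f := f) hM hu1
  rw [hA _ hu1, hA _ (by positivity)] at h1
  have e1 : (1 : ℝ) / (M ^ 2 * (u / M)) = 1 / (M * u) := by field_simp
  have e2 : (M : ℝ) * (u / M) = u := by field_simp
  rw [e1, e2, ← ENNReal.ofReal_mul hu.le] at h1
  have n0 : ∀ t : ℝ, 0 ≤ (∑' k : ℕ, bB (BB N M f) k * W (k * t / N)) + (PN N f).toReal := fun t =>
    add_nonneg (tsum_nonneg fun k => mul_nonneg (hb k) (W_nonneg _)) ENNReal.toReal_nonneg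
  have h2 := (ENNReal.ofReal_eq_ofReal_iff (n0 _) (mul_nonneg hu.le (n0 _))).1 h1
  have e3 : ∀ k : ℕ, (k : ℝ) * (1 / u) / (M * N) = k * (1 / (M * u)) / N := fun k => by
    field_simp
  have e4 : ∀ k : ℕ, (k : ℝ) * u / (M * N) = k * (u / M) / N := fun k => by
    field_simp
  simp_rw [e3, e4]
  exact h2

/-- the sharp mean value of `bM` -/
theorem bM_mean [NeZero N] (hsym : StSym) (hf : S2 N f) (hne : ∃ z, f z ≠ 0) {M : ℕ}
    (hMN : M ∣ N) : ∃ C δ : ℝ, 0 < δ ∧ ∀ x : ℝ, 1 ≤ x →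
    |∑ k ∈ Finset.Icc 1 ⌊x⌋₊, bB (BB N M f) k - 8 * π ^ 3 * (PN N f).toReal / (M * N) * x| ≤
      C * x ^ (1 - δ) := by
  have hN : 0 < N := Nat.pos_of_ne_zero (NeZero.ne N)
  have hM : 0 < M := Nat.pos_of_dvd_of_pos hMN hN
  have hN' : (0 : ℝ) < N := by exact_mod_cast hN
  have hM' : (0 : ℝ) < M := by exact_mod_cast hM
  exact hsym (bB (BB N M f)) (M * N) (PN N f).toReal (by positivity)
    (ENNReal.toReal_pos (PN_pos hf hne).ne' (PN_ne_top hf))
    (bB_nonneg fun n m => BB_nonneg M n m) (bB_zero _) (fun s hs => bM_summ hf M hs)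
    (fun u hu => sym_fe hf hMN hu)

end P004N.T3
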