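import Vale.Agent.P004N.H974.Rel

/-!
# P004N: the squarefree sum of `λ_p² - 1` with logarithmic saving
-/

open Real Finset

namespace P004N.MF

open ArithmeticFunction

variable {M : ℕ} {b : ℕ → ℝ}

/-- sums of squares -/
theorem sq_le {V C dl : ℝ} (hB : ∀ x : ℝ, 1 ≤ x →
    |∑ k ∈ Finset.Icc 1 ⌊x⌋₊, bM M b k - V * x| ≤ C * x ^ (1 - dl)) (hdl : 0 < dl) :
    ∀ n : ℕ, ∑ k ∈ Icc 1 n, (b k) ^ 2 / k ≤ (|V| + C) * n := by
  intro n
  rcases Nat.eq_zero_or_pos n with rfl | hn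
  · simp
  have hC : 0 ≤ C := by
    have := (abs_nonneg _).trans (hB 1 le_rfl)
    simpa using this
  have hn1 : (1 : ℝ) ≤ n := by exact_mod_cast hn
  have h1 := hB n hn1
  rw [Nat.floor_natCast] at h1
  have h2 : ∑ k ∈ Icc 1 n, (b k) ^ 2 / k ≤ ∑ k ∈ Icc 1 n, bM M b k := by
    refine sum_le_sum fun k hk => ?_
    have hk1 := (mem_Icc.1 hk).1
    have h3 : (b (k / 1 ^ 2)) ^ 2 / ((k / 1 ^ 2 : ℕ) : ℝ) ≤ bM M b k :=
      single_le_sum (f := fun m => (b (k / m ^ 2)) ^ 2 / ((k / m ^ 2 : ℕ) : ℝ))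
        (fun m _ => by positivity) (mem_filter.2 ⟨mem_Icc.2 ⟨le_rfl, hk1⟩, by simp⟩)
    simpa using h3
  have h3 := (abs_le.1 h1).2
  have h4 : (n : ℝ) ^ (1 - dl) ≤ n := by
    calc (n : ℝ) ^ (1 - dl) ≤ (n : ℝ) ^ (1 : ℝ) :=
          Real.rpow_le_rpow_of_exponent_le hn1 (by linarith)
      _ = n := Real.rpow_one _
  have h5 : V * n ≤ |V| * n := mul_le_mul_of_nonneg_right (le_abs_self V) (by linarith)
  have h6 : C * (n : ℝ) ^ (1 - dl) ≤ C * n := mul_le_mul_of_nonneg_left h4 hC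
  linarith

/-- convergence of the Rankin-Selberg series to the right of `1` -/
theorem rs_summ {K : ℝ} (h : ∀ n : ℕ, ∑ k ∈ Icc 1 n, (b k) ^ 2 / k ≤ K * n) {σ : ℝ}
    (hσ : 1 < σ) : Summable fun n : ℕ => (1 + (b n) ^ 2 / n) * (n : ℝ) ^ (-σ) := by
  have h1 : Summable fun n : ℕ => (n : ℝ) ^ (-σ) := Real.summable_nat_rpow.2 (by linarith)
  have hO : (fun n : ℕ => ∑ k ∈ Finset.Icc 1 n, (b k) ^ 2 / (k : ℝ)) =O[Filter.atTop]
      fun n : ℕ => (n : ℝ) ^ (1 : ℝ) := by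
    refine Asymptotics.IsBigO.of_bound K ?_
    filter_upwards [Filter.eventually_ge_atTop 1] with n hn
    rw [Real.norm_of_nonneg (Finset.sum_nonneg fun k _ => by positivity),
      Real.norm_of_nonneg (by positivity), Real.rpow_one]
    exact h n
  have h2 := LSeriesSummable_of_sum_norm_bigO_and_nonneg (f := fun n => (b n) ^ 2 / (n : ℝ))
    (s := ((σ : ℝ) : ℂ)) hO (fun n => by positivity) (by norm_num)
    (by rw [Complex.ofReal_re]; linarith)
  have h3 : Summable fun n : ℕ => (b n) ^ 2 / (n : ℝ) * (n : ℝ) ^ (-σ) := by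
    refine h2.norm.congr fun m => ?_
    rw [LSeries.norm_term_eq]
    split_ifs with hm
    · simp [hm]
    · have hm' : (0 : ℝ) < m := by exact_mod_cast Nat.pos_of_ne_zero hm
      rw [Complex.ofReal_re, Complex.norm_real, Real.norm_of_nonneg (by positivity),
        Real.rpow_neg hm'.le, div_eq_mul_inv _ ((m : ℝ) ^ σ)]
  refine (h1.add h3).congr fun n => ?_
  ring

/-- the correction is absolutely convergent -/
theorem gG_summ {B : ℕ} (hB0 : B ≠ 0) (hMB : M ∣ B) {δ C0 K : ℝ} (hδ : 0 < δ) (hδ1 : δ ≤ 1)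
    (hC0 : 0 ≤ C0) (hpow : ∀ n : ℕ, 1 ≤ n → (b n) ^ 2 ≤ C0 * (n : ℝ) ^ (2 - δ))
    (h : ∀ n : ℕ, ∑ k ∈ Icc 1 n, (b k) ^ 2 / k ≤ K * n) :
    Summable fun n : ℕ => |mf (gG M B b) n| * (n : ℝ) ^ (-(1 - δ / 4)) := by
  classical
  set σ : ℝ := 1 - δ / 4 with hσ
  have hσ0 : 0 < σ := by rw [hσ]; linarith
  set f : ℕ → ℝ := fun n => |mf (gG M B b) n| * (n : ℝ) ^ (-σ) with hf
  have hG0 : ∀ p, gG M B b p 0 = 1 := fun _ => rfl
  have hpp : ∀ {p : ℕ}, p.Prime → ∀ k : ℕ,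
      f (p ^ k) = |gG M B b p k| * ((p : ℝ) ^ (-σ)) ^ k := by
    intro p hp k
    simp only [hf]
    rw [mf_pp hG0 hp]
    push_cast
    rw [← Real.rpow_natCast, ← Real.rpow_mul (by positivity), ← Real.rpow_natCast,
      ← Real.rpow_mul (by positivity), mul_comm (k : ℝ)]
  have hx : ∀ {p : ℕ}, p.Prime → 0 < (p : ℝ) ^ (-σ) ∧ (p : ℝ) ^ (-σ) < 1 := by
    intro p hp
    have hp1 : (1 : ℝ) < p := by exact_mod_cast hp.one_lt
    exact ⟨Real.rpow_pos_of_pos (by linarith) _, Real.rpow_lt_one_of_one_lt_of_neg hp1 (by linarith)⟩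
  have hs : ∀ {p : ℕ}, p.Prime → Summable fun k : ℕ => f (p ^ k) := by
    intro p hp
    have h1 := hx hp
    have hb : ∃ D : ℝ, ∀ k : ℕ, |gG M B b p k| ≤ D := by
      refine ⟨1 + |1 - eq' b p| + |tq b p| + |tq b p - tq b p ^ 2| + |tq b p ^ 2 - 1|, fun k => ?_⟩
      have a1 := abs_nonneg (1 - eq' b p)
      have a2 := abs_nonneg (tq b p)
      have a3 := abs_nonneg (tq b p - tq b p ^ 2)
      have a4 := abs_nonneg (tq b p ^ 2 - 1)
      rcases k with _ | k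
      · simp only [gG, abs_one]; linarith
      · simp only [gG]
        split_ifs <;> (try simp only [abs_neg, abs_one, abs_zero]) <;> linarith
    obtain ⟨D, hD⟩ := hb
    have h2 : Summable fun k : ℕ => D * ((p : ℝ) ^ (-σ)) ^ k :=
      (summable_geometric_of_lt_one h1.1.le h1.2).mul_left D
    refine Summable.of_nonneg_of_le (fun k => ?_) (fun k => ?_) h2
    · simp only [hf]; positivity
    · rw [hpp hp]
      exact mul_le_mul_of_nonneg_right (hD k) (by positivity)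
  -- the primes not dividing `B`
  have hrs := rs_summ h (σ := 1 + δ / 2) (by linarith)
  set T : ℝ := ∑' n : ℕ, (1 + (b n) ^ 2 / n) * (n : ℝ) ^ (-(1 + δ / 2)) with hT
  have hgood : ∀ {p : ℕ}, p.Prime → ¬ p ∣ B →
      ∑' k : ℕ, f (p ^ (k + 1)) ≤ 5 * (1 + C0) * ((1 + (b p) ^ 2 / p) * (p : ℝ) ^ (-(1 + δ / 2))) := by
    intro p hp hpB
    have hpM : ¬ p ∣ M := fun h => hpB (h.trans hMB)
    have hp1 : (1 : ℝ) < p := by exact_mod_cast hp.one_lt
    have hp0 : (0 : ℝ) < p := by linarith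
    obtain ⟨x0, x1⟩ := hx hp
    set x : ℝ := (p : ℝ) ^ (-σ) with hxd
    set t : ℝ := tq b p with ht
    set L : ℝ := 1 + (b p) ^ 2 / p with hL
    have hL1 : 1 ≤ L := by
      have : 0 ≤ (b p) ^ 2 / p := by positivity
      linarith
    have htL : t = L - 2 := by rw [ht, hL, tq]; ring
    have hval : ∑' k : ℕ, f (p ^ (k + 1)) = |t - t ^ 2| * x ^ 2 + |t ^ 2 - 1| * x ^ 3 + |t| * x ^ 4 := by
      have h1 : ∀ k : ℕ, k ∉ ({1, 2, 3} : Finset ℕ) → f (p ^ (k + 1)) = 0 := by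
        intro k hk
        rw [hpp hp]
        simp only [mem_insert, mem_singleton, not_or] at hk
        simp only [gG]
        rw [if_neg hpM, if_neg hpB, if_neg hk.1, if_neg hk.2.1, if_neg hk.2.2, abs_zero, zero_mul]
      rw [tsum_eq_sum h1, sum_insert (by simp), sum_insert (by simp), sum_singleton, hpp hp,
        hpp hp, hpp hp]
      simp [gG, hpM, hpB, ← ht, ← hxd]
      ring
    rw [hval]
    have b1 : |t - t ^ 2| ≤ 2 * L ^ 2 := by
      rw [htL, abs_le]; constructor <;> nlinarith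
    have b2 : |t ^ 2 - 1| ≤ 2 * L ^ 2 := by
      rw [htL, abs_le]; constructor <;> nlinarith
    have b3 : |t| ≤ L ^ 2 := by
      rw [htL, abs_le]; constructor <;> nlinarith
    have x3 : x ^ 3 ≤ x ^ 2 := pow_le_pow_of_le_one x0.le x1.le (by norm_num)
    have x4 : x ^ 4 ≤ x ^ 2 := pow_le_pow_of_le_one x0.le x1.le (by norm_num)
    have h2 : |t - t ^ 2| * x ^ 2 + |t ^ 2 - 1| * x ^ 3 + |t| * x ^ 4 ≤ 5 * (L ^ 2 * x ^ 2) := by
      calc _ ≤ 2 * L ^ 2 * x ^ 2 + 2 * L ^ 2 * x ^ 2 + L ^ 2 * x ^ 2 := by gcongr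
        _ = _ := by ring
    refine h2.trans ?_
    have h3 : L ≤ (1 + C0) * (p : ℝ) ^ (1 - δ) := by
      have h4 := hpow p hp.one_lt.le
      have h5 : (b p) ^ 2 / p ≤ C0 * (p : ℝ) ^ (1 - δ) := by
        rw [div_le_iff₀ hp0, mul_assoc, ← Real.rpow_add_one hp0.ne']
        rw [show (1 : ℝ) - δ + 1 = 2 - δ by ring]
        exact h4
      have h6 : 1 ≤ (p : ℝ) ^ (1 - δ) := Real.one_le_rpow hp1.le (by linarith)
      rw [hL]
      linarith
    have h4 : x ^ 2 = (p : ℝ) ^ (-(2 * σ)) := by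
      rw [hxd, ← Real.rpow_natCast, ← Real.rpow_mul hp0.le]
      congr 1
      push_cast; ring
    have h5 : (p : ℝ) ^ (1 - δ) * (p : ℝ) ^ (-(2 * σ)) = (p : ℝ) ^ (-(1 + δ / 2)) := by
      rw [← Real.rpow_add hp0]
      congr 1
      rw [hσ]; ring
    calc 5 * (L ^ 2 * x ^ 2) = 5 * (L * (L * x ^ 2)) := by ring
      _ ≤ 5 * (L * (((1 + C0) * (p : ℝ) ^ (1 - δ)) * x ^ 2)) := by gcongr
      _ = 5 * (1 + C0) * (L * ((p : ℝ) ^ (1 - δ) * (p : ℝ) ^ (-(2 * σ)))) := by rw [h4]; ring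
      _ = _ := by rw [h5]
  have hT1 : ∀ s : Finset ℕ, ∑ p ∈ s, (1 + (b p) ^ 2 / p) * (p : ℝ) ^ (-(1 + δ / 2)) ≤ T :=
    fun s => hrs.sum_le_tsum _ fun n _ => by positivity
  refine mult_summable (S := ∑ p ∈ B.primeFactors, ∑' k : ℕ, f (p ^ (k + 1)) +
      5 * (1 + C0) * T) ?_ ?_ ?_ (fun n => by simp only [hf]; positivity) hs ?_
  · simp only [hf, ArithmeticFunction.map_zero, abs_zero, zero_mul]
  · simp only [hf]
    rw [(mf_mult (gG M B b)).1]
    simp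
  · intro m n hmn
    simp only [hf]
    rw [(mf_mult (gG M B b)).2 hmn, abs_mul]
    push_cast
    rw [Real.mul_rpow (by positivity) (by positivity)]
    ring
  · intro n
    rw [← sum_filter_add_sum_filter_not n.primesBelow (fun p => p ∣ B)]
    have hnn : ∀ p : ℕ, 0 ≤ ∑' k : ℕ, f (p ^ (k + 1)) := fun p =>
      tsum_nonneg fun k => by simp only [hf]; positivity
    apply add_le_add
    · apply sum_le_sum_of_subset_of_nonneg
      · intro p hp
        rw [mem_filter] at hp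
        exact Nat.mem_primeFactors.2 ⟨Nat.prime_of_mem_primesBelow hp.1, hp.2, hB0⟩
      · intro p _ _
        exact hnn p
    · calc ∑ p ∈ n.primesBelow.filter (fun p => ¬ p ∣ B), ∑' k : ℕ, f (p ^ (k + 1))
          ≤ ∑ p ∈ n.primesBelow.filter (fun p => ¬ p ∣ B),
              5 * (1 + C0) * ((1 + (b p) ^ 2 / p) * (p : ℝ) ^ (-(1 + δ / 2))) :=
            sum_le_sum fun p hp => by
              rw [mem_filter] at hp
              exact hgood (Nat.prime_of_mem_primesBelow hp.1) hp.2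
        _ ≤ 5 * (1 + C0) * T := by
            rw [← mul_sum]
            exact mul_le_mul_of_nonneg_left (hT1 _) (by positivity)

/-- **the squarefree sum of `λ_p² - 1` with logarithmic saving** -/
theorem n1 (H : Rl M b) {B : ℕ} (hB0 : B ≠ 0) (hMB : M ∣ B) {V C dl : ℝ} (hdl : 0 < dl)
    (hB : ∀ x : ℝ, 1 ≤ x → |∑ k ∈ Finset.Icc 1 ⌊x⌋₊, bM M b k - V * x| ≤ C * x ^ (1 - dl))
    {C0 δ : ℝ} (hC0 : 0 ≤ C0) (hδ : 0 < δ)
    (hpow : ∀ n : ℕ, 1 ≤ n → (b n) ^ 2 ≤ C0 * (n : ℝ) ^ (2 - δ)) (hmu : MuIn) :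
    ∃ (C D : ℝ), 1 ≤ C ∧ ∀ x : ℝ, 1 ≤ x →
      |∑ n ∈ (Finset.Icc 1 ⌊x⌋₊).filter (fun n => Squarefree n ∧ n.Coprime B),
        (∏ p ∈ n.primeFactors, ((b p) ^ 2 / p - 1)) / (n : ℝ) - D| ≤
          C / (1 + Real.log x) ^ 2 := by
  classical
  set δ' : ℝ := min δ 1 with hδ'
  have hδ'0 : 0 < δ' := lt_min hδ one_pos
  have hδ'1 : δ' ≤ 1 := min_le_right _ _
  have hpow' : ∀ n : ℕ, 1 ≤ n → (b n) ^ 2 ≤ C0 * (n : ℝ) ^ (2 - δ') := by
    intro n hn
    refine (hpow n hn).trans (mul_le_mul_of_nonneg_left ?_ hC0)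
    exact Real.rpow_le_rpow_of_exponent_le (by exact_mod_cast hn)
      (by linarith [min_le_left δ 1])
  have hbnn : ∀ k, 0 ≤ (sqM M * L2 b) k := by
    intro k
    rw [bM_eq]
    exact sum_nonneg fun n _ => by positivity
  obtain ⟨C1, hC1, h1⟩ := mub (b := sqM M * L2 b) hbnn (V := V) (C := C) hdl (fun x hx => by
    have := hB x hx
    simp only [bM_eq]
    exact this) hmu
  have hs := gG_summ (b := b) hB0 hMB hδ'0 hδ'1 hC0 hpow' (sq_le hB hdl)
  have hs' : Summable (fun n : ℕ => |wt (mf (gG M B b)) n| * (n : ℝ) ^ (δ' / 4)) := by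
    refine hs.congr fun n => ?_
    rcases Nat.eq_zero_or_pos n with rfl | hn
    · simp
    · have hn0 : (0 : ℝ) < n := by exact_mod_cast hn
      rw [wt_apply, abs_div, Nat.abs_cast, div_mul_eq_mul_div, mul_div_assoc,
        show -(1 - δ' / 4) = δ' / 4 - 1 by ring, Real.rpow_sub hn0, Real.rpow_one]
  obtain ⟨W, C2, hC2, h2⟩ := absconv hC1 (by positivity : 0 < δ' / 4) (by linarith) h1 hs'
  rw [← wt_mul, ← main_id H hMB] at h2
  refine ⟨4 * C2 + 1, W, by linarith, fun x hx => ?_⟩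
  set N := ⌊x⌋₊ with hN
  have hN1 : 1 ≤ N := by
    rw [hN, Nat.one_le_floor_iff]; exact hx
  have e : ∑ n ∈ (Finset.Icc 1 N).filter (fun n => Squarefree n ∧ n.Coprime B),
      (∏ p ∈ n.primeFactors, ((b p) ^ 2 / p - 1)) / (n : ℝ) =
        ∑ n ∈ Ioc 0 N, wt (mf (gT B b)) n := by
    rw [sum_filter]
    apply sum_congr
    · ext d
      rw [mem_Icc, mem_Ioc]; omega
    · intro n hn
      rw [mem_Ioc] at hn
      rw [wt_apply, gT_eq (by omega)]
      split_ifs with h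
      · rfl
      · rw [zero_div]
  rw [e]
  refine (h2 N hN1).trans ?_
  have hN0 : (0 : ℝ) < N := by exact_mod_cast hN1
  have hNR : (1 : ℝ) ≤ N := by exact_mod_cast hN1
  have h4 : x ≤ 2 * N := by
    have h5 := Nat.lt_floor_add_one x
    rw [← hN] at h5
    linarith
  have h5 : 1 + Real.log x ≤ 2 * (1 + Real.log N) := by
    have h6 : Real.log x ≤ Real.log 2 + Real.log N := by
      rw [← Real.log_mul (by norm_num) (by positivity)]
      exact Real.log_le_log (by linarith) h4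
    have h7 : Real.log 2 ≤ 1 := by
      have := Real.log_two_lt_d9
      linarith
    have h8 : 0 ≤ Real.log N := Real.log_nonneg hNR
    linarith
  have h6 : 0 ≤ Real.log x := Real.log_nonneg hx
  have h8 : 0 ≤ Real.log N := Real.log_nonneg hNR
  rw [div_le_div_iff₀ (by positivity) (by positivity)]
  have h9 : (1 + Real.log x) ^ 2 ≤ 4 * (1 + Real.log N) ^ 2 := by
    calc (1 + Real.log x) ^ 2 ≤ (2 * (1 + Real.log N)) ^ 2 := pow_le_pow_left₀ (by linarith) h5 2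
      _ = _ := by ring
  have h10 : 0 ≤ (1 + Real.log N) ^ 2 := by positivity
  calc C2 * (1 + Real.log x) ^ 2 ≤ C2 * (4 * (1 + Real.log N) ^ 2) :=
        mul_le_mul_of_nonneg_left h9 hC2
    _ ≤ (4 * C2 + 1) * (1 + Real.log N) ^ 2 := by linarith

end P004N.MF
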