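import Vale.Agent.P004N.H974.Comb
import Vale.Agent.P004N.H449.Sym
import Vale.Agent.P004N.H503.Iface

/-!
# P004N: the Rankin-Selberg mean value for cusp forms of weight two on `Γ₀(N)`
-/

open Finset UpperHalfPlane CongruenceSubgroup
open scoped MatrixGroups Modular ModularForm Manifold Real

namespace P004N

namespace T3

open Vale.Agent.P004.H26.H2 (PS)

variable {N : ℕ} {f : ℍ → ℂ}

/-- a cusp form with a nonvanishing coefficient does not vanish -/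
theorem ne_of_coeff (hN : 0 < N) (hf : S2 N f) {c : ℕ → ℂ} (hq : QE f c) {n : ℕ} (hn : c n ≠ 0) :
    ∃ z, f z ≠ 0 := by
  by_contra h
  push Not at h
  have hN' : (0 : ℝ) < N := by exact_mod_cast hN
  have hp := per hf 1
  have hmd := mdiff_slash hf 1
  have hb := bdd_slash hf 1
  rw [slash_one'] at hp hmd hb
  have h0 : ∀ τ : ℍ, HasSum (fun m : ℕ => (0 : ℂ) •
      Function.Periodic.qParam (N : ℝ) (τ : ℂ) ^ m) (f τ) := by
    intro τ
    rw [h τ]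
    simp
  have h1 := coeff_uniq hN' (analyticAt_cuspFunction_zero hN' hp hmd hb) (hasSum_dil hN hq)
    (d := fun _ => 0) h0 (N * n)
  rw [if_pos (dvd_mul_right _ _), Nat.mul_div_cancel_left n hN] at h1
  exact hn h1

/-- **The Rankin-Selberg mean value**, unconditional, complex coefficients -/
theorem rs [NeZero N] (hf : S2 N f) {c : ℕ → ℂ} (hq : QE f c) {n : ℕ} (hn : c n ≠ 0) :
    0 < (PN N f).toReal ∧
    PS (bNc N c) (8 * π ^ 3 * (N.totient : ℝ) / N ^ 2 * (PN N f).toReal) := by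
  have hN : 0 < N := Nat.pos_of_ne_zero (NeZero.ne N)
  have hne := ne_of_coeff hN hf hq hn
  exact ⟨ENNReal.toReal_pos (PN_pos hf hne).ne' (PN_ne_top hf), RS H449.pfSym hf hq hne⟩

/-- the coefficients of `ζ^{(N)}(2s) ∑ b(n)² / n n^{-s}` -/
noncomputable def bNr (N : ℕ) (b : ℕ → ℝ) (k : ℕ) : ℝ :=
  ∑ n ∈ (Finset.Icc 1 k).filter (fun n => n ^ 2 ∣ k ∧ n.Coprime N),
    (b (k / n ^ 2)) ^ 2 / ((k / n ^ 2 : ℕ) : ℝ)

theorem bNr_eq (N : ℕ) (b : ℕ → ℝ) : bNc N (fun n => (b n : ℂ)) = bNr N b := by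
  funext k
  unfold bNc bNr
  refine sum_congr rfl fun n _ => ?_
  rw [Complex.norm_real, Real.norm_eq_abs, sq_abs]

theorem bNr_nonneg (N : ℕ) (b : ℕ → ℝ) (k : ℕ) : 0 ≤ bNr N b k :=
  sum_nonneg fun _ _ => by positivity

/-- real coefficients -/
theorem rs_real (hN : 0 < N) (hf : S2 N f) {b : ℕ → ℝ} (hq : QE f (fun n => (b n : ℂ)))
    (hb : b 1 = 1) : ∃ V : ℝ, 0 < V ∧ PS (bNr N b) V := by
  have : NeZero N := ⟨hN.ne'⟩
  have h := rs hf hq (n := 1) (by rw [hb]; norm_num)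
  rw [bNr_eq] at h
  have hphi : (0 : ℝ) < N.totient := by exact_mod_cast Nat.totient_pos.2 hN
  have hN' : (0 : ℝ) < N := by exact_mod_cast hN
  have hpi := Real.pi_pos
  exact ⟨_, mul_pos (by positivity) h.1, h.2⟩

/-- a power saving for the coefficients -/
theorem pow_of {b : ℕ → ℝ} {V : ℝ} (h : PS (bNr N b) V) :
    ∃ C δ : ℝ, 1 ≤ C ∧ 0 < δ ∧ ∀ n : ℕ, 1 ≤ n → (b n) ^ 2 ≤ C * (n : ℝ) ^ (2 - δ) := by
  obtain ⟨C, δ, hC0, hδ, hδ1, hC⟩ := h.norm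
  refine ⟨|V| + 2 * C + 1, δ, by linarith [abs_nonneg V], hδ, fun n hn => ?_⟩
  have hn' : (1 : ℝ) ≤ n := by exact_mod_cast hn
  have hn0 : (0 : ℝ) < n := by linarith
  have hle : (b n) ^ 2 / n ≤ bNr N b n := by
    have h1 : (b (n / 1 ^ 2)) ^ 2 / ((n / 1 ^ 2 : ℕ) : ℝ) ≤ bNr N b n :=
      single_le_sum (f := fun m => (b (n / m ^ 2)) ^ 2 / ((n / m ^ 2 : ℕ) : ℝ))
        (fun m _ => by positivity) (mem_filter.2 ⟨mem_Icc.2 ⟨le_rfl, hn⟩, by simp⟩)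
    simpa using h1
  have hpow : 1 ≤ (n : ℝ) ^ (1 - δ) := Real.one_le_rpow hn' (by linarith)
  have h2 := hC n hn' 1 one_pos
  simp only [Nat.cast_one, div_one, Nat.floor_natCast] at h2
  have hup : bNr N b n ≤ |V| + 2 * C * (n : ℝ) ^ (1 - δ) := by
    have h3 : ∑ k ∈ Icc 1 n, bNr N b k = ∑ k ∈ Icc 1 (n - 1), bNr N b k + bNr N b n := by
      have : n = n - 1 + 1 := by omega
      conv_lhs => rw [this, sum_Icc_succ_top (by omega)]
      rw [← this]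
    rcases Nat.lt_or_ge 1 n with h1n | h1n
    · have hm1 : (1 : ℝ) ≤ ((n - 1 : ℕ) : ℝ) := by
        have : 1 ≤ n - 1 := by omega
        exact_mod_cast this
      have h4 := hC ((n - 1 : ℕ) : ℝ) hm1 1 one_pos
      simp only [Nat.cast_one, div_one, Nat.floor_natCast] at h4
      have h5 : ((n - 1 : ℕ) : ℝ) = n - 1 := by
        rw [Nat.cast_sub hn]; simp
      have h6 : ((n - 1 : ℕ) : ℝ) ^ (1 - δ) ≤ (n : ℝ) ^ (1 - δ) :=
        Real.rpow_le_rpow (by positivity) (by rw [h5]; linarith) (by linarith)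
      rw [abs_le] at h2 h4
      have h7 : C * ((n - 1 : ℕ) : ℝ) ^ (1 - δ) ≤ C * (n : ℝ) ^ (1 - δ) :=
        mul_le_mul_of_nonneg_left h6 hC0
      have h8 := le_abs_self V
      rw [h5] at h4
      rw [h5] at h7
      nlinarith [h2.1, h2.2, h4.1, h4.2]
    · have h1 : n = 1 := by omega
      subst h1
      rw [abs_le] at h2
      have h8 := le_abs_self V
      simp only [Icc_self, sum_singleton, Nat.cast_one, Real.one_rpow, mul_one] at h2 ⊢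
      linarith [h2.2]
  have h9 : (b n) ^ 2 ≤ n * (|V| + 2 * C * (n : ℝ) ^ (1 - δ)) := by
    have := hle.trans hup
    rw [div_le_iff₀ hn0] at this
    linarith
  have h10 : (n : ℝ) ^ (2 - δ) = n * (n : ℝ) ^ (1 - δ) := by
    rw [show (2 : ℝ) - δ = 1 + (1 - δ) by ring, Real.rpow_add hn0, Real.rpow_one]
  rw [h10]
  calc (b n) ^ 2 ≤ n * (|V| + 2 * C * (n : ℝ) ^ (1 - δ)) := h9
    _ ≤ n * ((|V| + 2 * C + 1) * (n : ℝ) ^ (1 - δ)) := by
        gcongr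
        have := abs_nonneg V
        nlinarith
    _ = _ := by ring

end T3

/-- **Module T3** -/
theorem pfRS : StRS := by
  intro N f a hN hf hq h1
  obtain ⟨V, hV, C, δ, hδ, h⟩ := T3.rs_real hN hf (b := fun n => (a n : ℝ)) (by
    have : (fun n : ℕ => (((a n : ℤ) : ℝ) : ℂ)) = fun n => ((a n : ℤ) : ℂ) := by
      funext n; push_cast; rfl
    rw [this]
    exact hq) (by rw [h1]; norm_num)
  exact ⟨V, C, δ, hV, hδ, h⟩

/-- **Module T3c-1** -/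
theorem pfPowN : ∀ (M : ℕ) (g : ℍ → ℂ) (b : ℕ → ℝ) (ε : ℝ), NF M g b ε →
    ∃ C δ : ℝ, 1 ≤ C ∧ 0 < δ ∧ ∀ n : ℕ, 1 ≤ n → (b n) ^ 2 ≤ C * (n : ℝ) ^ (2 - δ) := by
  intro M g b ε h
  obtain ⟨V, -, hP⟩ := T3.rs_real h.pos h.s2 h.qe h.one
  exact T3.pow_of hP

/-- **Module T3d** -/
theorem pfPow : ∀ (N : ℕ) (f : ℍ → ℂ) (a : ℕ → ℤ), RN N f a →
    ∃ C δ : ℝ, 0 < δ ∧ ∀ n : ℕ, 1 ≤ n → ((a n : ℝ)) ^ 2 ≤ C * (n : ℝ) ^ (2 - δ) := by
  intro N f a h
  obtain ⟨V, -, hP⟩ := T3.rs_real h.pos h.s2 (b := fun n => (a n : ℝ)) (by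
    have : (fun n : ℕ => (((a n : ℤ) : ℝ) : ℂ)) = fun n => ((a n : ℤ) : ℂ) := by
      funext n; push_cast; rfl
    rw [this]
    exact h.qe) (by rw [h.one]; norm_num)
  obtain ⟨C, δ, -, hδ, hC⟩ := T3.pow_of hP
  exact ⟨C, δ, hδ, hC⟩

end P004N
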