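import Vale.Agent.P004N.H974.Abs

/-!
# P004N: local series of the Rankin-Selberg coefficients of a newform
-/

open Real Finset

namespace P004N.MF

open ArithmeticFunction

/-- the relations between the coefficients -/
structure Rl (M : ℕ) (b : ℕ → ℝ) : Prop where
  pos : 0 < M
  one : b 1 = 1
  good : ∀ p : ℕ, p.Prime → ¬ p ∣ M → ∀ n : ℕ,
    b (p * n) + (if p ∣ n then (p : ℝ) * b (n / p) else 0) = b p * b n
  bad : ∀ p : ℕ, p.Prime → p ∣ M → ∀ n : ℕ, b (p * n) = b p * b n

variable {M : ℕ} {b : ℕ → ℝ}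

theorem Rl.mul (H : Rl M b) (m n : ℕ) (h : m.Coprime n) : b (m * n) = b m * b n := by
  induction m using Nat.strong_induction_on generalizing n with
  | _ m ih =>
  rcases Nat.eq_zero_or_pos m with rfl | hm
  · have hn : n = 1 := by simpa using h
    subst hn
    rw [H.one, mul_one, mul_one]
  rcases Nat.lt_or_ge 1 m with h1 | h1
  · obtain ⟨p, hp, m', rfl⟩ := Nat.exists_prime_and_dvd (n := m) (by omega)
    have hm' : 0 < m' := Nat.pos_of_ne_zero (by rintro rfl; simp at hm)
    have hlt : m' < p * m' := by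
      have := hp.one_lt
      nlinarith
    have hc : m'.Coprime n := h.coprime_mul_left
    have hpn : p.Coprime n := h.coprime_mul_right
    have hpn' : ¬ p ∣ n := (Nat.Prime.coprime_iff_not_dvd hp).1 hpn
    have e1 := ih m' hlt n hc
    by_cases hpM : p ∣ M
    · rw [mul_assoc, H.bad p hp hpM, H.bad p hp hpM, e1, mul_assoc]
    · have g1 := H.good p hp hpM (m' * n)
      have g2 := H.good p hp hpM m'
      rw [mul_assoc]
      have hiff : p ∣ m' * n ↔ p ∣ m' := by
        rw [hp.dvd_mul]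
        constructor
        · rintro (h | h)
          · exact h
          · exact absurd h hpn'
        · exact Or.inl
      by_cases hpm : p ∣ m'
      · rw [if_pos (hiff.2 hpm)] at g1
        rw [if_pos hpm] at g2
        obtain ⟨j, rfl⟩ := hpm
        have hj : 0 < j := Nat.pos_of_ne_zero (by rintro rfl; simp at hm')
        have hlt2 : j < p * (p * j) := by
          have := hp.one_lt
          nlinarith
        have e2 := ih j hlt2 n hc.coprime_mul_left
        rw [mul_assoc p j n, Nat.mul_div_cancel_left _ hp.pos] at g1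
        rw [Nat.mul_div_cancel_left _ hp.pos] at g2
        rw [mul_assoc p j n] at e1
        rw [mul_assoc p j n]
        rw [e1, e2] at g1
        linear_combination g1 - b n * g2
      · rw [if_neg (fun h => hpm (hiff.1 h))] at g1
        rw [if_neg hpm] at g2
        rw [e1] at g1
        linear_combination g1 - b n * g2
  · have : m = 1 := by omega
    subst this
    rw [one_mul, H.one, one_mul]

theorem Rl.rec2 (H : Rl M b) {p : ℕ} (hp : p.Prime) (hpM : ¬ p ∣ M) (k : ℕ) :
    b (p ^ (k + 2)) = b p * b (p ^ (k + 1)) - p * b (p ^ k) := by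
  have h := H.good p hp hpM (p ^ (k + 1))
  rw [if_pos (dvd_pow_self p (Nat.succ_ne_zero k)), ← pow_succ' p (k + 1), pow_succ p k,
    Nat.mul_div_cancel _ hp.pos, ← pow_succ p k] at h
  linarith

theorem Rl.rec1 (H : Rl M b) {p : ℕ} (hp : p.Prime) (hpM : p ∣ M) (k : ℕ) :
    b (p ^ (k + 1)) = b p * b (p ^ k) := by
  rw [pow_succ', H.bad p hp hpM]

/-- `b(n)² / n` -/
noncomputable def L2 (b : ℕ → ℝ) : ArithmeticFunction ℝ := ⟨fun n => (b n) ^ 2 / n, by simp⟩

lemma L2_apply (b : ℕ → ℝ) (n : ℕ) : L2 b n = (b n) ^ 2 / n := rfl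

lemma L2_mult (H : Rl M b) : IsMultiplicative (L2 b) := by
  constructor
  · rw [L2_apply, H.one]; norm_num
  · intro m n h
    rw [L2_apply, L2_apply, L2_apply, H.mul m n h]
    push_cast
    rw [mul_pow, mul_div_mul_comm]

open scoped Classical in
/-- indicator of the squares of the positive integers prime to `M` -/
noncomputable def sqM (M : ℕ) : ArithmeticFunction ℝ :=
  ⟨fun n => if n ≠ 0 ∧ ∃ m, n = m ^ 2 ∧ m.Coprime M then 1 else 0, by simp⟩

open scoped Classical in
lemma sqM_apply (M n : ℕ) :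
    sqM M n = if n ≠ 0 ∧ ∃ m, n = m ^ 2 ∧ m.Coprime M then 1 else 0 := rfl

/-- the coefficients of `ζ^{(M)}(2s) ∑ b(n)² / n n^{-s}` -/
noncomputable def bM (M : ℕ) (b : ℕ → ℝ) (k : ℕ) : ℝ :=
  ∑ n ∈ (Finset.Icc 1 k).filter (fun n => n ^ 2 ∣ k ∧ n.Coprime M),
    (b (k / n ^ 2)) ^ 2 / ((k / n ^ 2 : ℕ) : ℝ)

lemma bM_eq (k : ℕ) : (sqM M * L2 b) k = bM M b k := by
  classical
  rcases Nat.eq_zero_or_pos k with rfl | hk
  · rw [ArithmeticFunction.map_zero, bM]; simp
  rw [mul_apply, bM]
  symm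
  apply sum_bij_ne_zero (fun n _ _ => (n ^ 2, k / n ^ 2))
  · intro n hn _
    rw [mem_filter, mem_Icc] at hn
    rw [Nat.mem_divisorsAntidiagonal]
    exact ⟨Nat.mul_div_cancel' hn.2.1, hk.ne'⟩
  · intro n hn _ m hm _ h
    have h1 := (Prod.mk.inj h).1
    exact Nat.pow_left_injective (n := 2) (by norm_num) h1
  · intro x hx h0
    rw [Nat.mem_divisorsAntidiagonal] at hx
    have h1 : sqM M x.1 ≠ 0 := left_ne_zero_of_mul h0
    rw [sqM_apply] at h1
    have h2 : x.1 ≠ 0 ∧ ∃ m, x.1 = m ^ 2 ∧ m.Coprime M := by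
      by_contra h
      rw [if_neg h] at h1
      exact h1 rfl
    obtain ⟨h3, m, hm, hmM⟩ := h2
    have hm0 : m ≠ 0 := by
      rintro rfl
      exact h3 (by rw [hm]; norm_num)
    have hdv : m ^ 2 ∣ k := ⟨x.2, by rw [← hm, hx.1]⟩
    have hx2 : k / m ^ 2 = x.2 := by
      rw [← hx.1, hm]
      exact Nat.mul_div_cancel_left _ (by positivity)
    refine ⟨m, ?_, ?_, ?_⟩
    · rw [mem_filter, mem_Icc]
      refine ⟨⟨Nat.pos_of_ne_zero hm0, ?_⟩, hdv, hmM⟩
      have h4 := Nat.le_of_dvd hk hdv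
      nlinarith [Nat.pos_of_ne_zero hm0]
    · rw [hx2]
      have h5 : L2 b x.2 ≠ 0 := right_ne_zero_of_mul h0
      rwa [L2_apply] at h5
    · rw [hx2, ← hm]
  · intro n hn _
    rw [mem_filter, mem_Icc] at hn
    have : sqM M (n ^ 2) = 1 := by
      rw [sqM_apply, if_pos]
      exact ⟨pow_ne_zero 2 (by omega), n, rfl, hn.2.2⟩
    rw [this, one_mul, L2_apply]

lemma sqM_mult (M : ℕ) : IsMultiplicative (sqM M) := by
  classical
  constructor
  · rw [sqM_apply, if_pos ⟨one_ne_zero, 1, by norm_num, Nat.coprime_one_left M⟩]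
  · intro m n h
    rw [sqM_apply, sqM_apply, sqM_apply]
    by_cases hm : m ≠ 0 ∧ ∃ k, m = k ^ 2 ∧ k.Coprime M
    · by_cases hn : n ≠ 0 ∧ ∃ k, n = k ^ 2 ∧ k.Coprime M
      · obtain ⟨hm0, k, rfl, hk⟩ := hm
        obtain ⟨hn0, l, rfl, hl⟩ := hn
        rw [if_pos ⟨mul_ne_zero hm0 hn0, k * l, by ring, Nat.Coprime.mul_left hk hl⟩,
          if_pos ⟨hm0, k, rfl, hk⟩, if_pos ⟨hn0, l, rfl, hl⟩, one_mul]
      · rw [if_neg hn, mul_zero, if_neg]
        rintro ⟨h0, c, hc, hcM⟩
        refine hn ⟨right_ne_zero_of_mul h0, ?_⟩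
        rw [mul_comm] at hc
        obtain ⟨d, hd⟩ := exists_eq_pow_of_mul_eq_pow (by
          rw [Nat.isUnit_iff]; exact h.symm) hc
        refine ⟨d, hd, ?_⟩
        have h1 : d ^ 2 ∣ c ^ 2 := by rw [← hc, ← hd]; exact dvd_mul_right _ _
        exact hcM.coprime_dvd_left ((Nat.pow_dvd_pow_iff (by norm_num)).1 h1)
    · rw [if_neg hm, zero_mul, if_neg]
      rintro ⟨h0, c, hc, hcM⟩
      refine hm ⟨left_ne_zero_of_mul h0, ?_⟩
      obtain ⟨d, hd⟩ := exists_eq_pow_of_mul_eq_pow (by
          rw [Nat.isUnit_iff]; exact h) hc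
      refine ⟨d, hd, ?_⟩
      have h1 : d ^ 2 ∣ c ^ 2 := by rw [← hc, ← hd]; exact dvd_mul_right _ _
      exact hcM.coprime_dvd_left ((Nat.pow_dvd_pow_iff (by norm_num)).1 h1)

lemma sqM_pp {p : ℕ} (hp : p.Prime) (hpM : ¬ p ∣ M) (k : ℕ) :
    sqM M (p ^ k) = if Even k then 1 else 0 := by
  classical
  rw [sqM_apply]
  congr 1
  apply propext
  constructor
  · rintro ⟨-, m, hm, -⟩
    have h1 := congrArg (fun n => n.factorization p) hm
    simp only [Nat.factorization_pow, Finsupp.smul_apply, hp.factorization_self, smul_eq_mul,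
      mul_one] at h1
    exact ⟨m.factorization p, by omega⟩
  · rintro ⟨m, rfl⟩
    exact ⟨pow_ne_zero _ hp.ne_zero, p ^ m, by rw [← pow_mul]; congr 1; ring,
      Nat.Coprime.pow_left _ ((Nat.Prime.coprime_iff_not_dvd hp).2 hpM)⟩

lemma sqM_pp' {p : ℕ} (hp : p.Prime) (hpM : p ∣ M) (k : ℕ) :
    sqM M (p ^ k) = if k = 0 then 1 else 0 := by
  classical
  rw [sqM_apply]
  congr 1
  apply propext
  constructor
  · rintro ⟨-, m, hm, hmM⟩
    by_contra hk
    have h1 : p ∣ m ^ 2 := by rw [← hm]; exact dvd_pow_self p hk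
    have h2 : p ∣ m := hp.dvd_of_dvd_pow h1
    exact hp.one_lt.ne' (Nat.eq_one_of_dvd_coprimes hmM h2 hpM)
  · rintro rfl
    exact ⟨by simp, 1, by simp, Nat.coprime_one_left M⟩

open PowerSeries in
lemma ser_sqM {p : ℕ} (hp : p.Prime) (hpM : ¬ p ∣ M) : ser (sqM M) p * (1 - X ^ 2) = 1 := by
  ext k
  have e : ser (sqM M) p * (1 - X ^ 2) = ser (sqM M) p - ser (sqM M) p * X * X := by ring
  rw [e, map_sub, coeff_one]
  rcases k with _ | _ | k
  · rw [coeff_zero_mul_X]
    simp only [ser, coeff_mk]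
    rw [sqM_pp hp hpM]
    simp
  · rw [coeff_succ_mul_X, coeff_zero_mul_X]
    simp only [ser, coeff_mk]
    rw [sqM_pp hp hpM]
    simp
  · rw [coeff_succ_mul_X, coeff_succ_mul_X]
    simp only [ser, coeff_mk]
    rw [sqM_pp hp hpM, sqM_pp hp hpM, if_neg (show ¬ (k + 1 + 1 = 0) by omega)]
    have : Even (k + 1 + 1) ↔ Even k := by
      rw [show k + 1 + 1 = k + 2 by ring, Nat.even_add]
      simp
    simp [this]

open PowerSeries in
lemma ser_sqM' {p : ℕ} (hp : p.Prime) (hpM : p ∣ M) : ser (sqM M) p = 1 := by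
  ext k
  rw [coeff_one]
  simp only [ser, coeff_mk]
  rw [sqM_pp' hp hpM]

/-- `λ_p² - 1` -/
noncomputable def tq (b : ℕ → ℝ) (p : ℕ) : ℝ := (b p) ^ 2 / p - 1

open PowerSeries in
lemma ser_L2 (H : Rl M b) {p : ℕ} (hp : p.Prime) (hpM : ¬ p ∣ M) :
    ser (L2 b) p * (1 - C (tq b p) * X + C (tq b p) * X ^ 2 - X ^ 3) = 1 + X := by
  have hp0 : (p : ℝ) ≠ 0 := by exact_mod_cast hp.ne_zero
  set t : ℝ := tq b p with ht
  have ht' : t = (b p) ^ 2 / p - 1 := rfl
  have c0 : L2 b (p ^ 0) = 1 := by rw [L2_apply, pow_zero, H.one]; norm_num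
  have c1 : L2 b (p ^ 1) = t + 1 := by rw [L2_apply, pow_one, ht']; ring
  have crec : ∀ k, L2 b (p ^ (k + 3)) = t * L2 b (p ^ (k + 2)) - t * L2 b (p ^ (k + 1)) +
      L2 b (p ^ k) := by
    intro k
    have h1 := H.rec2 hp hpM k
    have h2 := H.rec2 hp hpM (k + 1)
    rw [show k + 1 + 2 = k + 3 from rfl, show k + 1 + 1 = k + 2 from rfl] at h2
    simp only [L2_apply]
    push_cast
    rw [h2, ht']
    rw [h1]
    field_simp
    ring
  have c2 : L2 b (p ^ 2) = t ^ 2 := by
    have h1 := H.rec2 hp hpM 0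
    rw [zero_add, zero_add, pow_one, pow_zero, H.one] at h1
    rw [L2_apply, h1, ht']
    push_cast
    field_simp
  ext k
  have e : ser (L2 b) p * (1 - C t * X + C t * X ^ 2 - X ^ 3) =
      ser (L2 b) p - C t * (ser (L2 b) p * X) + C t * (ser (L2 b) p * X * X) -
        ser (L2 b) p * X * X * X := by ring
  rw [e, map_sub, map_add, map_sub, map_add, coeff_C_mul, coeff_C_mul, coeff_one, coeff_X]
  rcases k with _ | _ | _ | k
  · rw [coeff_zero_mul_X, coeff_zero_mul_X, coeff_zero_mul_X]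
    simp only [ser, coeff_mk]
    rw [c0]
    simp
  · rw [coeff_succ_mul_X, coeff_succ_mul_X, coeff_succ_mul_X, coeff_zero_mul_X, coeff_zero_mul_X]
    simp only [ser, coeff_mk]
    rw [zero_add, c1, c0]
    simp
  · rw [coeff_succ_mul_X, coeff_succ_mul_X, coeff_succ_mul_X, coeff_succ_mul_X,
      coeff_succ_mul_X, coeff_zero_mul_X]
    simp only [ser, coeff_mk]
    rw [show 0 + 1 + 1 = 2 from rfl, c2, c1, c0]
    simp
    ring
  · rw [coeff_succ_mul_X, coeff_succ_mul_X, coeff_succ_mul_X, coeff_succ_mul_X,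
      coeff_succ_mul_X, coeff_succ_mul_X]
    simp only [ser, coeff_mk]
    rw [show k + 1 + 1 + 1 = k + 3 from rfl, show k + 1 + 1 = k + 2 from rfl, crec]
    rw [if_neg (by omega), if_neg (by omega)]
    ring

/-- `b_p² / p` -/
noncomputable def eq' (b : ℕ → ℝ) (p : ℕ) : ℝ := (b p) ^ 2 / p

open PowerSeries in
lemma ser_L2' (H : Rl M b) {p : ℕ} (hp : p.Prime) (hpM : p ∣ M) :
    ser (L2 b) p * (1 - C (eq' b p) * X) = 1 := by
  have hp0 : (p : ℝ) ≠ 0 := by exact_mod_cast hp.ne_zero
  apply ser_one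
  · rw [L2_apply, pow_zero, H.one]; norm_num
  · intro k
    rw [L2_apply, L2_apply, H.rec1 hp hpM k, eq']
    push_cast
    field_simp
    ring

/-! ### the squarefree function and the correction -/

open scoped Classical in
/-- the local values of the squarefree function -/
noncomputable def gT (B : ℕ) (b : ℕ → ℝ) (p : ℕ) : ℕ → ℝ
  | 0 => 1
  | 1 => if p ∣ B then 0 else tq b p
  | _ => 0

open scoped Classical in
/-- the local values of the correction -/
noncomputable def gG (M B : ℕ) (b : ℕ → ℝ) (p : ℕ) : ℕ → ℝ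
  | 0 => 1
  | k + 1 => if p ∣ M then 1 - eq' b p else
      if p ∣ B then (if k = 0 then -tq b p else if k = 1 then tq b p else if k = 2 then -1 else 0)
      else (if k = 1 then tq b p - tq b p ^ 2 else if k = 2 then tq b p ^ 2 - 1 else
        if k = 3 then -tq b p else 0)

open PowerSeries in
/-- the identity between the Dirichlet series -/
theorem main_id (H : Rl M b) {B : ℕ} (hMB : M ∣ B) :
    mf (gT B b) = muR * (sqM M * L2 b) * mf (gG M B b) := by
  refine eq_of_ser (mf_mult _) ((muR_mult.mul ((sqM_mult M).mul (L2_mult H))).mul (mf_mult _)) ?_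
  intro p hp
  rw [ser_mul _ _ hp, ser_mul _ _ hp, ser_mul _ _ hp, ser_muR hp]
  have hT : ser (mf (gT B b)) p = 1 + C (if p ∣ B then 0 else tq b p) * X := by
    ext k
    rw [map_add, coeff_C_mul, coeff_X, coeff_one]
    simp only [ser, coeff_mk]
    rw [mf_pp (fun _ => rfl) hp]
    rcases k with _ | _ | k
    · simp [gT]
    · simp [gT]
    · simp [gT]
  rw [hT]
  set t : ℝ := tq b p with ht
  by_cases hM : p ∣ M
  · have hB : p ∣ B := hM.trans hMB
    have h1 := ser_L2' H hp hM
    rw [ser_sqM' hp hM, if_pos hB]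
    have hG : ser (mf (gG M B b)) p * (1 - X) = 1 - C (eq' b p) * X := by
      ext k
      have e : ser (mf (gG M B b)) p * (1 - X) =
        ser (mf (gG M B b)) p - ser (mf (gG M B b)) p * X := by ring
      rw [e, map_sub, map_sub, coeff_C_mul, coeff_one, coeff_X]
      rcases k with _ | _ | k
      · rw [coeff_zero_mul_X]
        simp only [ser, coeff_mk]
        rw [mf_pp (fun _ => rfl) hp]
        simp [gG]
      · rw [coeff_succ_mul_X]
        simp only [ser, coeff_mk]
        rw [mf_pp (fun _ => rfl) hp, mf_pp (fun _ => rfl) hp]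
        simp [gG, hM]
      · rw [coeff_succ_mul_X]
        simp only [ser, coeff_mk]
        rw [mf_pp (fun _ => rfl) hp, mf_pp (fun _ => rfl) hp]
        simp [gG, hM]
    set R := ser (L2 b) p
    set Gs := ser (mf (gG M B b)) p
    calc (1 : PowerSeries ℝ) + C 0 * X = 1 := by simp
      _ = R * (1 - C (eq' b p) * X) := h1.symm
      _ = R * (Gs * (1 - X)) := by rw [hG]
      _ = (1 - X) * (1 * R) * Gs := by ring
  · have h1 := ser_L2 H hp hM
    have h2 := ser_sqM (M := M) hp hM
    rw [← ht] at h1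
    set R := ser (L2 b) p
    set S := ser (sqM M) p
    have key : (1 - X) * (S * R) * (1 - C t * X + C t * X ^ 2 - X ^ 3) = 1 := by
      calc (1 - X) * (S * R) * (1 - C t * X + C t * X ^ 2 - X ^ 3)
          = (1 - X) * S * (R * (1 - C t * X + C t * X ^ 2 - X ^ 3)) := by ring
        _ = S * (1 - X ^ 2) := by rw [h1]; ring
        _ = 1 := h2
    by_cases hB : p ∣ B
    · rw [if_pos hB]
      have hG : ser (mf (gG M B b)) p = 1 - C t * X + C t * X ^ 2 - X ^ 3 := by
        ext k
        rw [map_sub, map_add, map_sub, coeff_C_mul, coeff_C_mul, coeff_one, coeff_X, coeff_X_pow,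
          coeff_X_pow]
        simp only [ser, coeff_mk]
        rw [mf_pp (fun _ => rfl) hp]
        rcases k with _ | _ | _ | _ | k
        · simp [gG]
        · simp [gG, hM, hB, ht]
        · simp [gG, hM, hB, ht]
        · simp [gG, hM, hB]
        · simp [gG, hM, hB]
      rw [hG, key]
      simp
    · rw [if_neg hB]
      have hG : ser (mf (gG M B b)) p =
          (1 + C t * X) * (1 - C t * X + C t * X ^ 2 - X ^ 3) := by
        have e : (1 + C t * X) * (1 - C t * X + C t * X ^ 2 - X ^ 3) =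
            1 + C (t - t ^ 2) * X ^ 2 + C (t ^ 2 - 1) * X ^ 3 + C (-t) * X ^ 4 := by
          simp only [map_sub, map_pow, map_neg, map_one]
          ring
        rw [e]
        ext k
        rw [map_add, map_add, map_add, coeff_C_mul, coeff_C_mul, coeff_C_mul, coeff_one,
          coeff_X_pow, coeff_X_pow, coeff_X_pow]
        simp only [ser, coeff_mk]
        rw [mf_pp (fun _ => rfl) hp]
        rcases k with _ | _ | _ | _ | _ | k
        · simp [gG]
        · simp [gG, hM, hB]
        · simp [gG, hM, hB, ht]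
        · simp [gG, hM, hB, ht]
        · simp [gG, hM, hB, ht]
        · simp [gG, hM, hB]
      rw [hG]
      calc 1 + C t * X = (1 + C t * X) * 1 := (mul_one _).symm
        _ = (1 + C t * X) * ((1 - X) * (S * R) * (1 - C t * X + C t * X ^ 2 - X ^ 3)) := by
            rw [key]
        _ = _ := by ring

/-- the squarefree function -/
lemma gT_eq {B n : ℕ} (hn : n ≠ 0) [Decidable (Squarefree n ∧ n.Coprime B)] :
    mf (gT B b) n = if Squarefree n ∧ n.Coprime B then
      ∏ p ∈ n.primeFactors, ((b p) ^ 2 / p - 1) else 0 := by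
  rw [mf_apply _ hn, Finsupp.prod, Nat.support_factorization]
  split_ifs with h
  · apply prod_congr rfl
    intro p hp
    rw [Nat.mem_primeFactors] at hp
    have hd : ¬ p ∣ B := fun hd => hp.1.one_lt.ne' (Nat.eq_one_of_dvd_coprimes h.2 hp.2.1 hd)
    rw [Nat.factorization_eq_one_of_squarefree h.1 hp.1 hp.2.1]
    simp [gT, hd, tq]
  · by_cases hs : Squarefree n
    · have hc : ¬ n.Coprime B := fun hc => h ⟨hs, hc⟩
      obtain ⟨p, hp, h1, h2⟩ := Nat.Prime.not_coprime_iff_dvd.1 hc
      apply prod_eq_zero (i := p) (Nat.mem_primeFactors.2 ⟨hp, h1, hn⟩)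
      rw [Nat.factorization_eq_one_of_squarefree hs hp h1]
      simp [gT, h2]
    · rw [Nat.squarefree_iff_factorization_le_one hn] at hs
      push Not at hs
      obtain ⟨p, hp⟩ := hs
      have h1 : p ∈ n.primeFactors := by
        rw [← Nat.support_factorization, Finsupp.mem_support_iff]; omega
      apply prod_eq_zero (i := p) h1
      obtain ⟨k, hk⟩ : ∃ k, n.factorization p = k + 2 := ⟨n.factorization p - 2, by omega⟩
      rw [hk]
      rfl

end P004N.MF
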