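import Vale.Agent.P004.H26.R.Rsu
import Vale.Agent.P004H.H2.Theta2

/-!
# P004N: unfolding with weights
-/

open UpperHalfPlane MeasureTheory Set
open scoped MatrixGroups Modular ENNReal Real

namespace P004N.T3

open Vale.Agent.P004.H26.H86

/-- row vector times matrix -/
def rv (v : ℤ × ℤ) (g : SL(2, ℤ)) : ℤ × ℤ :=
  (v.1 * g 0 0 + v.2 * g 1 0, v.1 * g 0 1 + v.2 * g 1 1)

theorem rv_one (v : ℤ × ℤ) : rv v 1 = v := by
  simp [rv]

theorem rv_mul (v : ℤ × ℤ) (g h : SL(2, ℤ)) : rv v (g * h) = rv (rv v g) h := by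
  simp only [rv, Matrix.SpecialLinearGroup.coe_mul, Matrix.mul_apply, Fin.sum_univ_two]
  apply Prod.ext <;> simp only <;> ring

theorem rv_zero (g : SL(2, ℤ)) : rv 0 g = 0 := by
  simp [rv]

/-- `v ↦ v g` as a permutation -/
def rvE (g : SL(2, ℤ)) : ℤ × ℤ ≃ ℤ × ℤ where
  toFun v := rv v g
  invFun v := rv v g⁻¹
  left_inv v := by
    show rv (rv v g) g⁻¹ = v
    rw [← rv_mul, mul_inv_cancel, rv_one]
  right_inv v := by
    show rv (rv v g⁻¹) g = v
    rw [← rv_mul, inv_mul_cancel, rv_one]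

theorem Qf_smul (v : ℤ × ℤ) (g : SL(2, ℤ)) (z : ℍ) : Qf v (g • z) = Qf (rv v g) z := by
  have hd : denom g z ≠ 0 := denom_ne_zero _ _
  have key : ∀ (u : ℤ × ℤ) (w : ℍ), Qf u w = Complex.normSq ((u.1 : ℂ) * w + u.2) / w.im := by
    intro u w
    rw [Qf, Complex.normSq_apply]
    congr 1
    simp
    ring
  have hc : ((g • z : ℍ) : ℂ) = ((g 0 0 : ℂ) * z + g 0 1) / ((g 1 0 : ℂ) * z + g 1 1) := by
    rw [UpperHalfPlane.coe_specialLinearGroup_apply]
    simp
  rw [ModularGroup.denom_apply] at hd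
  rw [key, key, hc, ModularGroup.im_smul_eq_div_normSq, div_div_eq_mul_div, ← map_mul,
    ModularGroup.denom_apply]
  congr 2
  rw [add_mul, mul_div_assoc', div_mul_cancel₀ _ hd]
  simp only [rv]
  push_cast
  ring

/-- the strip `0 ≤ re < N` with weight `1 / N` -/
noncomputable def SN (N : ℕ) (w : ℍ) : ℝ≥0∞ :=
  (N : ℝ≥0∞)⁻¹ * ({w : ℍ | 0 ≤ w.re ∧ w.re < N}).indicator (fun _ => 1) w

theorem measurable_SN (N : ℕ) : Measurable (SN N) := by
  have h : Measurable fun z : ℍ => z.re := Complex.measurable_re.comp measurable_coe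
  refine measurable_const.mul (measurable_const.indicator ?_)
  exact (measurableSet_le measurable_const h).inter (measurableSet_lt h measurable_const)

theorem sumTN {N : ℕ} (hN : 0 < N) (w : ℍ) :
    ∑' k : ℤ, SN N (ModularGroup.T ^ k • w) = 1 := by
  have h1 : ∀ k : ℤ, ({w : ℍ | 0 ≤ w.re ∧ w.re < N}).indicator (fun _ => (1 : ℝ≥0∞))
      (ModularGroup.T ^ k • w) = ∑ j ∈ Finset.range N, S01 (ModularGroup.T ^ (k - j) • w) := by
    intro k
    have hS : ∀ j : ℕ, S01 (ModularGroup.T ^ (k - (j : ℤ)) • w) =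
        if ⌊(ModularGroup.T ^ k • w).re⌋ = j then 1 else 0 := by
      intro j
      rw [S01]
      split_ifs with h
      · rw [indicator_of_mem]
        rw [Int.floor_eq_iff, ModularGroup.re_T_zpow_smul] at h
        simp only [mem_ofPred_eq, ModularGroup.re_T_zpow_smul]
        push_cast at h ⊢
        constructor <;> linarith [h.1, h.2]
      · rw [indicator_of_notMem]
        simp only [mem_ofPred_eq, ModularGroup.re_T_zpow_smul]
        rintro ⟨h1, h2⟩
        apply h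
        rw [Int.floor_eq_iff, ModularGroup.re_T_zpow_smul]
        push_cast at h1 h2 ⊢
        constructor <;> linarith
    simp_rw [hS]
    by_cases hw : 0 ≤ (ModularGroup.T ^ k • w).re ∧ (ModularGroup.T ^ k • w).re < N
    · rw [indicator_of_mem (by exact hw)]
      have h2 : 0 ≤ ⌊(ModularGroup.T ^ k • w).re⌋ := Int.floor_nonneg.2 hw.1
      have h3 : ⌊(ModularGroup.T ^ k • w).re⌋ < N := by
        rw [Int.floor_lt]; exact_mod_cast hw.2
      rw [Finset.sum_eq_single (⌊(ModularGroup.T ^ k • w).re⌋.toNat)]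
      · rw [if_pos]; omega
      · intro j _ hj
        rw [if_neg]; omega
      · intro hj
        exfalso
        apply hj
        rw [Finset.mem_range]; omega
    · rw [indicator_of_notMem (by exact hw)]
      symm
      apply Finset.sum_eq_zero
      intro j hj
      rw [if_neg]
      intro h
      apply hw
      rw [Finset.mem_range] at hj
      have h4 : (0 : ℤ) ≤ ⌊(ModularGroup.T ^ k • w).re⌋ := by omega
      have h5 : ⌊(ModularGroup.T ^ k • w).re⌋ < (N : ℤ) := by omega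
      refine ⟨Int.floor_nonneg.1 h4, ?_⟩
      rw [Int.floor_lt] at h5
      exact_mod_cast h5
  unfold SN
  rw [ENNReal.tsum_mul_left]
  simp_rw [h1]
  have h2 : ∑' k : ℤ, ∑ j ∈ Finset.range N, S01 (ModularGroup.T ^ (k - (j : ℤ)) • w) =
      ∑ j ∈ Finset.range N, ∑' k : ℤ, S01 (ModularGroup.T ^ (k - (j : ℤ)) • w) :=
    Summable.tsum_finsetSum fun _ _ => ENNReal.summable
  rw [h2]
  have h3 : ∀ j ∈ Finset.range N, ∑' k : ℤ, S01 (ModularGroup.T ^ (k - (j : ℤ)) • w) = 1 := by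
    intro j _
    rw [← sumT w, ← (Equiv.subRight (j : ℤ)).tsum_eq (fun k : ℤ => S01 (ModularGroup.T ^ k • w))]
    rfl
  rw [Finset.sum_congr rfl h3, Finset.sum_const, Finset.card_range, nsmul_eq_mul, mul_one]
  exact ENNReal.inv_mul_cancel (by exact_mod_cast hN.ne') (ENNReal.natCast_ne_top N)

theorem groupN {N : ℕ} (hN : 0 < N) (z : ℍ) (f : ℤ × ℤ → ℝ≥0∞) : ∑' v : NV, f v =
    ∑' n : ℕ, ∑' γ : SL(2, ℤ), SN N (γ • z) * f (rv (0, (n : ℤ) + 1) γ) := by
  have h1 : ∀ n : ℕ, ∑' γ : SL(2, ℤ), SN N (γ • z) * f (rv (0, (n : ℤ) + 1) γ)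
      = ∑' p : CP, f (((n : ℤ) + 1) * p.1.1, ((n : ℤ) + 1) * p.1.2) := by
    intro n
    rw [← (Equiv.ofBijective Psi Psi_bij).tsum_eq (fun γ : SL(2, ℤ) => SN N (γ • z) *
      f (rv (0, (n : ℤ) + 1) γ))]
    rw [ENNReal.tsum_prod']
    refine tsum_congr fun p => ?_
    have h2 : ∀ k : ℤ, SN N ((Equiv.ofBijective Psi Psi_bij) (p, k) • z) *
        f (rv (0, (n : ℤ) + 1) ((Equiv.ofBijective Psi Psi_bij) (p, k))) =
        SN N (ModularGroup.T ^ k • (gp p • z)) *
          f (((n : ℤ) + 1) * p.1.1, ((n : ℤ) + 1) * p.1.2) := by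
      intro k
      have h3 : (Equiv.ofBijective Psi Psi_bij) (p, k) = ModularGroup.T ^ k * gp p := rfl
      have h4 : rv (0, (n : ℤ) + 1) (ModularGroup.T ^ k * gp p) =
          (((n : ℤ) + 1) * p.1.1, ((n : ℤ) + 1) * p.1.2) := by
        simp only [rv, zero_mul, zero_add]
        rw [T_row, T_row, gp0, gp1]
      rw [h3, h4, mul_smul]
    simp_rw [h2]
    rw [ENNReal.tsum_mul_right, sumTN hN, one_mul]
  simp_rw [h1]
  rw [← ENNReal.tsum_prod (f := fun (n : ℕ) (p : CP) => f (((n : ℤ) + 1) * p.1.1, ((n : ℤ) + 1) * p.1.2))]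
  rw [← (Equiv.ofBijective Phi Phi_bij).tsum_eq (fun v : NV => f v)]
  rfl

theorem Qf_row' (n : ℕ) (γ : SL(2, ℤ)) (z : ℍ) :
    Qf (rv (0, (n : ℤ) + 1) γ) z = ((n : ℝ) + 1) ^ 2 / (γ • z).im := by
  rw [← Qf_row n γ z]
  simp only [rv, zero_mul, zero_add]

/-- **unfolding with weights** -/
theorem unf {N : ℕ} (hN : 0 < N) {E : ℤ × ℤ → ℍ → ℝ≥0∞} (hm : ∀ v, Measurable (E v))
    (hE : ∀ (v : ℤ × ℤ) (γ : SL(2, ℤ)) (z : ℍ), E (rv v γ) z = E v (γ • z)) (t : ℝ) :
    ∫⁻ z in (𝒟 : Set ℍ), ∑' v : NV, E v z * ENNReal.ofReal (Real.exp (-(π * t * Qf v z))) =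
      2 * ∑' n : ℕ, ∫⁻ z : ℍ, E (0, (n : ℤ) + 1) z *
        (SN N z * ENNReal.ofReal (Real.exp (-(π * (t * ((n : ℝ) + 1) ^ 2) / z.im)))) := by
  have := sl_countable
  have hφ : ∀ n : ℕ, Measurable fun z : ℍ => E (0, (n : ℤ) + 1) z *
        (SN N z * ENNReal.ofReal (Real.exp (-(π * (t * ((n : ℝ) + 1) ^ 2) / z.im)))) := by
    intro n
    refine (hm _).mul ((measurable_SN N).mul ?_)
    exact ENNReal.measurable_ofReal.comp
      (Real.measurable_exp.comp ((measurable_const.div meas_im).neg))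
  have h1 : ∀ z : ℍ, ∑' v : NV, E v z * ENNReal.ofReal (Real.exp (-(π * t * Qf v z))) =
      ∑' n : ℕ, ∑' γ : SL(2, ℤ), E (0, (n : ℤ) + 1) (γ • z) *
        (SN N (γ • z) *
          ENNReal.ofReal (Real.exp (-(π * (t * ((n : ℝ) + 1) ^ 2) / (γ • z).im)))) := by
    intro z
    rw [groupN hN z (fun v => E v z * ENNReal.ofReal (Real.exp (-(π * t * Qf v z))))]
    refine tsum_congr fun n => ?_
    refine tsum_congr fun γ => ?_
    rw [hE, Qf_row']
    have e : -(π * t * (((n : ℝ) + 1) ^ 2 / (γ • z).im)) =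
        -(π * (t * ((n : ℝ) + 1) ^ 2) / (γ • z).im) := by ring
    rw [e]
    ring
  simp_rw [h1]
  rw [lintegral_tsum]
  · rw [← ENNReal.tsum_mul_left]
    refine tsum_congr fun n => ?_
    rw [lintegral_tsum]
    · rw [← unfold (hφ n)]
    · intro γ
      have : Measurable fun z : ℍ => (γ • z : ℍ) :=
        (MeasurableEquiv.smul ((γ : SL(2, ℤ)) : GL (Fin 2) ℝ)).measurable
      exact ((hφ n).comp this).aemeasurable
  · intro n
    refine Measurable.aemeasurable ?_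
    refine Measurable.tsum fun γ => ?_
    have : Measurable fun z : ℍ => (γ • z : ℍ) :=
      (MeasurableEquiv.smul ((γ : SL(2, ℤ)) : GL (Fin 2) ℝ)).measurable
    exact (hφ n).comp this

end P004N.T3
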